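import Vale.Agent.P014Y.Z2.Bas

/-! # P014Y, block Z2: the indices of the full class -/

set_option autoImplicit false
set_option linter.all false

open scoped NumberTheorySymbols

namespace Vale.Agent.P014Y.Z2

open P004Z P004Z.Gq
open P014T.Z (Hg)

namespace Ari

theorem lift {N r d : ℤ} (h : 4 * N ∣ r ^ 2 + d) (m : d % 8 = 7) (n0 : N ≠ 0) :
    ∃ t, 16 * N ∣ (r + 2 * N * t) ^ 2 + d := by
  obtain ⟨k, hk⟩ := h
  suffices ∃ t, 4 ∣ k + t * r + N * t ^ 2 by
    obtain ⟨t, u, hu⟩ := this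
    exact ⟨t, u, by linear_combination hk + 4 * N * hu⟩
  obtain ⟨s, rfl | rfl⟩ := Int.even_or_odd' r
  · have : d = 4 * (N * k - s ^ 2) := by linear_combination hk
    omega
  obtain ⟨u, hu⟩ := Int.even_mul_succ_self s
  have e : 8 * u + 1 + d = 4 * (N * k) := by linear_combination hk - 4 * hu
  obtain ⟨j, rfl | rfl⟩ := Int.even_or_odd' k
  · obtain ⟨i, rfl | rfl⟩ := Int.even_or_odd' j
    · exact ⟨0, i, by ring⟩
    · exact ⟨2, i + s + 1 + N, by ring⟩
  · obtain ⟨n, rfl | rfl⟩ := Int.even_or_odd' N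
    · obtain ⟨i, hi | hi⟩ := Int.even_or_odd' (j + s + 1 + n)
      · exact ⟨1, i, by linear_combination 2 * hi⟩
      · exact ⟨3, i + s + 1 + 4 * n, by linear_combination 2 * hi⟩
    · have : 8 * u + 1 + d = 8 * (2 * n * j + n + j) + 4 := by linear_combination e
      omega

theorem J_sq {p : ℕ} {x y : ℤ} (h : J(x * y ^ 2 | p) = 1) : J(x | p) = 1 := by
  rw [jacobiSym.mul_left, jacobiSym.pow_left] at h
  rcases jacobiSym.trichotomy y p with e | e | e <;> simpa [e] using h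

end Ari

open Ari

theorem ari : ARI := fun N d _ β n r h ⟨ur, n8, c⟩ i => by
  have ok := Hg.ok h
  obtain ⟨n', rfl⟩ : d ∣ n := by
    rw [← Nat.prod_primeFactors_of_squarefree h.sq]
    exact Finset.prod_primes_dvd n (fun q hq => (Nat.prime_of_mem_primeFactors hq).prime)
      fun q hq => (c q hq).1
  obtain ⟨d₁, m, rfl, sq⟩ := Nat.sq_mul_squarefree n'
  have J1 {q : ℕ} (hq : q.Prime) (k : q ∣ d) : J(-(d₁ : ℤ) * (m * (d / q : ℕ)) ^ 2 | q) = 1 := by
    have := (c q (Nat.mem_primeFactors.2 ⟨hq, k, h.sq.ne_zero⟩)).2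
    obtain ⟨e, rfl⟩ := k
    rw [mul_assoc, Nat.mul_div_cancel_left _ hq.pos, Nat.mul_div_cancel_left _ hq.pos] at this
    rw [Nat.mul_div_cancel_left _ hq.pos, ← this]
    congr 1
    push_cast
    ring
  have c1 : (m ^ 2 * d₁).Coprime d := Nat.coprime_of_dvd fun q hq k k' => by
    have := J1 hq k'
    obtain ⟨u, hu⟩ := k
    have hu' : (m : ℤ) ^ 2 * d₁ = q * u := by exact_mod_cast hu
    rw [show -(d₁ : ℤ) * (m * (d / q : ℕ)) ^ 2 = q * (-u * (d / q : ℕ) ^ 2) by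
      linear_combination -((d / q : ℕ) : ℤ) ^ 2 * hu', jacobiSym.mul_left,
      jacobiSym.eq_zero_iff.2 ⟨hq.ne_zero, by simpa using hq.one_lt.ne'⟩] at this
    simp at this
  have cr : r.val.Coprime (2 * N) := by
    obtain ⟨u, rfl⟩ := ur
    exact ZMod.val_coe_unit_coprime u
  have i' : (4 * N : ℤ) ∣ (r.val : ℤ) ^ 2 + d₁ * (d * m) ^ 2 := by
    refine i.trans (dvd_of_eq ?_)
    push_cast
    ring
  have i2 {q : ℕ} (k : q ∣ 2 * N) : (q : ℤ) ∣ (r.val : ℤ) ^ 2 + d₁ * (d * m) ^ 2 :=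
    ((Int.natCast_dvd_natCast.2 k).trans ⟨2, by push_cast; ring⟩).trans i'
  have c2 : (d * m).Coprime (2 * N) := Nat.coprime_of_dvd fun q hq k k' => by
    have : (q : ℤ) ∣ (r.val : ℤ) ^ 2 := (dvd_add_left (Dvd.dvd.mul_left
      (Dvd.dvd.pow (by exact_mod_cast k) two_ne_zero) _)).1 (i2 k')
    exact hq.one_lt.ne' (Nat.eq_one_of_dvd_coprimes cr
      (hq.dvd_of_dvd_pow (n := 2) (by exact_mod_cast this)) k')
  have d8 : d₁ % 8 = 7 := by
    obtain ⟨s, hs⟩ : Odd m := Nat.coprime_two_right.1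
      (c2.coprime_mul_left.coprime_mul_right_right)
    obtain ⟨u, hu⟩ := Nat.even_mul_succ_self s
    obtain ⟨e, he⟩ : ∃ e, d = 8 * e + 7 := ⟨d / 8, by have := h.m8; omega⟩
    have : d * (m ^ 2 * d₁) = 8 * (e * (m ^ 2 * d₁) + 7 * u * d₁) + 7 * d₁ := by
      have : m ^ 2 = 8 * u + 1 := by rw [hs]; linear_combination 4 * hu
      rw [he, this]
      ring
    omega
  obtain ⟨w, hw⟩ := (ZMod.isUnit_iff_coprime _ _).2 c2
  obtain ⟨s, hs⟩ := ZMod.intCast_surjective (r * ((w⁻¹ : (ZMod (2 * N))ˣ) : ZMod (2 * N)))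
  have e1 : ((s * (d * m) : ℤ) : ZMod (2 * N)) = (r.val : ℤ) := by
    rw [Int.cast_mul, hs, show ((d * m : ℤ) : ZMod (2 * N)) = w by rw [hw]; simp]
    simp
  have e2 : (4 * N : ℤ) ∣ s ^ 2 + d₁ := by
    have a : (4 * N : ℤ) ∣ (r.val : ℤ) ^ 2 - (s * (d * m)) ^ 2 :=
      sq_dvd (by exact_mod_cast (ZMod.intCast_eq_intCast_iff_dvd_sub _ _ _).1 e1)
    have b : IsCoprime (4 * N : ℤ) ((d * m) ^ 2) := by
      have : (4 * N).Coprime (d * m) := (Nat.Coprime.pow_left 2 c2.symm).coprime_dvd_left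
        ⟨N, by ring⟩
      exact IsCoprime.pow_right (by exact_mod_cast Nat.isCoprime_iff_coprime.2 this)
    exact b.dvd_of_dvd_mul_right ((i'.sub a).trans (dvd_of_eq (by ring)))
  obtain ⟨t, ht⟩ := lift e2 (by exact_mod_cast d8) (Nat.cast_ne_zero.2 (NeZero.ne N))
  refine ⟨d₁, m, s + 2 * N * t, by ring, ?_, (Nat.squarefree_mul_iff).2
    ⟨c1.coprime_mul_left.symm, h.sq, sq⟩, Nat.Coprime.mul_right c2.coprime_mul_left
      ((Nat.coprime_pow_left_iff two_pos _ _).1 c1.coprime_mul_right),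
    fun big => ⟨ok, sq, d8, fun p hp p2 k => ?_, big, ht⟩⟩
  · have z : (2 * N : ZMod (2 * N)) = 0 := by exact_mod_cast ZMod.natCast_self (2 * N)
    push_cast at e1 ⊢
    rw [ZMod.natCast_zmod_val] at e1
    rw [z, ← e1]
    ring
  · rcases (Nat.Prime.dvd_mul hp).1 k with k | k
    · obtain ⟨u, hu⟩ := i2 (k.mul_left 2)
      refine J_sq (y := d * m) ?_
      rw [show -(d₁ : ℤ) * (d * m) ^ 2 = (r.val : ℤ) ^ 2 + p * (-u) by linear_combination -hu,
        jacobiSym.mod_left, Int.add_mul_emod_self_left, ← jacobiSym.mod_left]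
      exact jacobiSym.sq_one' (by
        rw [Int.gcd_natCast_natCast]; exact cr.coprime_dvd_right (k.mul_left 2))
    · exact J_sq (J1 hp k)

end Vale.Agent.P014Y.Z2
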