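import Vale.Agent.P004Z.W.Ex

/-! # P014Y, block Z2: twists of the terms of `T(q ^ 2)` by periodic weights -/

set_option autoImplicit false
set_option linter.all false

open UpperHalfPlane hiding I
open Complex Matrix
open scoped MatrixGroups Real ComplexConjugate

noncomputable section

namespace Vale.Agent.P014Y.Z2.Hw

open P004Z.W

variable {N k : ℕ} [NeZero N] [NeZero k] {G : ℍ → AA N → ℂ} {g : ℕ → AA N → ℂ}

instance : NeZero (N * k ^ 2) := ⟨mul_ne_zero (NeZero.ne N) (pow_ne_zero 2 (NeZero.ne k))⟩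

variable (N k) in
/-- the theta function at `k v` -/
def Tk : (Fin 2 → ℝ) → ℍ → AA N → ℂ := fun v => th N ((k : ℝ) • v)

theorem sw_Tk (x : Mp) (v : Fin 2 → ℝ) : sw x (Tk N k) v = sw x (th N) ((k : ℝ) • v) := by
  rw [sw, sw, Tk, smul_vecMul]

theorem tk_n (z : ℤ) : ∃ Y, sw (nn (4 * N * z / k)) (Tk N k) = Mv Y (th (N * k ^ 2)) := by
  have k0 : (k : ℤ) ≠ 0 := Nat.cast_ne_zero.2 (NeZero.ne k)
  have k1 : (k : ℂ) ≠ 0 := Nat.cast_ne_zero.2 (NeZero.ne k)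
  have n0 := N_ne (N := N)
  let f : AA N → ℤ → ℂ := fun r Y =>
    if (k : ℤ) ∣ Y ∧ ((Y / k : ℤ) : AA N) = r then ee (z * ((Y / k : ℤ) : ℂ) ^ 2 / k) else 0
  have e : ∀ r (Y : ℤ), f r ((Y : AA (N * k ^ 2)).val : ℤ) = f r Y := fun r Y => by
    obtain ⟨c, hc⟩ := (ZMod.intCast_eq_intCast_iff_dvd_sub Y (Y : AA (N * k ^ 2)).val
      (2 * (N * k ^ 2))).1 (by rw [Int.cast_natCast, ZMod.natCast_zmod_val])
    rw [show ((Y : AA (N * k ^ 2)).val : ℤ) = Y + k * (2 * N * k * c) by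
      push_cast at hc ⊢; linear_combination hc]
    simp only [f, Int.add_mul_ediv_left _ _ k0, dvd_add_left (dvd_mul_right (k : ℤ) _)]
    refine if_congr (and_congr_right fun _ => Eq.congr_left ?_) (ee_congr
      (z * (4 * N * c * (Y / k) + 4 * N ^ 2 * k * c ^ 2)) ?_) rfl
    · exact (ZMod.intCast_eq_intCast_iff_dvd_sub _ _ _).2 ⟨-(k * c), by push_cast; ring⟩
    · generalize Y / k = w
      push_cast
      field_simp
      ring
  refine ⟨of fun r w => f r (w.val : ℤ), ?_⟩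
  funext v τ r
  rw [sw_Tk]
  simp only [sw, sl, nn_j, _root_.one_zpow, one_smul]
  have h := hasSum_dot (fun w : AA (N * k ^ 2) => f r (w.val : ℤ)) v τ
  simp only [e] at h
  refine (hasSum_th _ _ r).unique (hs_cg (((mul_right_injective₀ k0).hasSum_iff
    fun Y hY => ?_).2 h) fun y => ?_)
  · rw [show f r Y = 0 from if_neg fun ⟨⟨c, e⟩, _⟩ => hY ⟨c, e.symm⟩, zero_mul]
  · simp only [Function.comp, f, dvd_mul_right, true_and, Int.mul_ediv_cancel_left _ k0, ite_mul,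
      zero_mul, tt_nn]
    refine if_congr Iff.rfl ?_ rfl
    rw [tt, tt]
    congr 2
    · push_cast
      field_simp
    · simp
      field_simp

theorem rm_n (s : ℤ) : Rm N (nn (4 * N * s : ℤ)) = 1 := by
  rw [Rm_nn, show eQ N (4 * N * s) = fun _ => 1 from funext fun r => ?_, diagonal_one]
  have := N_ne (N := N)
  rw [eQ, ← ee_int (s * r.val ^ 2)]
  congr 1
  push_cast
  field_simp

/-- conjugates of the elements of level `4 N k ^ 2` act trivially -/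
theorem rm_cj (z : ℤ) {γ : Mp} (h : γ ∈ Gm) (h1 : Rm (N * k ^ 2) γ = 1)
    (m : nn (4 * N * z / k) * γ * (nn (4 * N * z / k))⁻¹ ∈ Gm) :
    Rm N (nn (4 * N * z / k) * γ * (nn (4 * N * z / k))⁻¹) = 1 := by
  obtain ⟨Y, hY⟩ := tk_n (N := N) (k := k) z
  have a : sw (nn (4 * N * z / k) * γ * (nn (4 * N * z / k))⁻¹) (Tk N k) = Tk N k := by
    rw [sw_mul, sw_mul, hY, sw_Mv, gd h, h1, Mv_one, ← hY, ← sw_mul, mul_inv_cancel, sw_one]
  refine Mv_inj ?_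
  rw [← gd m, Mv_one]
  funext v
  have := congrFun a ((k : ℝ)⁻¹ • v)
  rwa [sw_Tk, Tk, smul_inv_smul₀ (Nat.cast_ne_zero.2 (NeZero.ne k))] at this

/-- the twist -/
def tw (ψ : ZMod k → AA N → ℂ) (m : ℕ) (G : ℍ → AA N → ℂ) : ℍ → AA N → ℂ :=
  ∑ ν : ZMod k, mv (diagonal (ψ ν)) (sl 3 (nn (4 * N * (m * ν.val : ℤ) / k)) G)

/-- the Fourier coefficients -/
def fc (φ : ℕ → AA N → ℂ) (ν : ZMod k) (r : AA N) : ℂ :=
  (k : ℂ)⁻¹ * ∑ y : ZMod k, φ y.val r * ZMod.stdAddChar (ν * -y)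

theorem en_tw {φ : ℕ → AA N → ℂ} (per : ∀ n m r, n ≡ m [MOD k] → φ n r = φ m r) (m : ℕ)
    (h : En G g) : En (tw (fc (k := k) φ) m G) fun n r => φ (m * n) r * g n r := by
  have a : ∀ ν : ZMod k, En (mv (diagonal (fc φ ν)) (sl 3 (nn (4 * N * (m * ν.val : ℤ) / k)) G))
      fun n r => fc φ ν r * ZMod.stdAddChar (ν * ((m * n : ℕ) : ZMod k)) * g n r := fun ν τ r => by
    simp only [mv, mulVec_diagonal, sl, nn_j, _root_.one_zpow, one_smul]
    refine hs_cg ((h _ r).mul_left _) fun n => ?_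
    have := N_ne (N := N)
    rw [← ee_std, nn_sm, mul_assoc, mul_assoc, mul_left_comm (ee _), ← ee_add]
    congr 3
    push_cast
    field_simp
    ring
  refine (En.sum a).cg fun n r => ?_
  simp only [Finset.sum_apply]
  rw [← Finset.sum_mul]
  congr 1
  simp only [fc, mul_assoc, ← Finset.mul_sum]
  simp only [Finset.sum_mul, mul_assoc, ← AddChar.map_add_eq_mul, ← mul_add]
  rw [Finset.sum_comm]
  simp only [← Finset.mul_sum, sum_psi, neg_add_eq_zero, mul_ite, mul_zero, Finset.sum_ite_eq',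
    Finset.mem_univ, if_true]
  have k1 : (k : ℂ) ≠ 0 := Nat.cast_ne_zero.2 (NeZero.ne k)
  rw [per _ _ r (show (((m * n : ℕ) : ZMod k).val) ≡ m * n [MOD k] by
    rw [ZMod.val_natCast]; exact Nat.mod_modEq _ _)]
  field_simp

theorem sl_tw (ψ : ZMod k → AA N → ℂ) (m : ℕ) (x : Mp) : sl 3 x (tw ψ m G) =
    ∑ ν : ZMod k, mv (diagonal (ψ ν)) (sl 3 (nn (4 * N * (m * ν.val : ℤ) / k) * x) G) := by
  have := sl_sum 3 x (fun _ : ZMod k => (1 : ℂ))
    fun ν => mv (diagonal (ψ ν)) (sl 3 (nn (4 * N * (m * ν.val : ℤ) / k)) G)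
  simp only [one_smul] at this
  simp only [tw, this, sl_mv, sl_mul]

variable {q : ℕ} [Fact q.Prime] {σ : ℂ →+* ℂ} {u : ℤ} {η : ℂ} {F : ℍ → AA N → ℂ}

theorem sl_aa (ψ : ZMod k → AA N → ℂ) : sl 3 (aa q) (tw ψ (q ^ 2) G) = tw ψ 1 (sl 3 (aa q) G) := by
  rw [sl_tw, tw]
  refine Finset.sum_congr rfl fun ν _ => ?_
  rw [← sl_mul, aa_nn]
  congr 4
  push_cast
  ring

theorem cg {x γ γ' : Mp} (hx : Dp q x) (h : γ ∈ Gm)
    (e : ∀ i j, ∃ z : ℤ, γ'.g i j = γ.g i j + q ^ 2 * z) : x * γ' * (x * γ)⁻¹ ∈ Gm := by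
  obtain ⟨A, B, C, D, hx⟩ := hx
  choose z hz using mem_Gm.1 h
  choose w hw using e
  have im : ∀ (y : Mp) (z : Fin 2 → Fin 2 → ℤ), (∀ i j, y.g i j = z i j) → Im q (x * y)
      (A * z 0 0 + B * z 1 0) (A * z 0 1 + B * z 1 1) (C * z 0 0 + D * z 1 0)
      (C * z 0 1 + D * z 1 1) := fun y z hz => by
    constructor <;>
    simp only [Mp.mul_g, mul_e, hz, Int.cast_add, Int.cast_mul, ← hx.a, ← hx.b, ← hx.c, ← hx.d] <;>
    ring
  have a := im γ z hz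
  have d := a.det
  refine ((im γ' (fun i j => z i j + q ^ 2 * w i j) fun i j => by
    rw [hw, hz]; push_cast; rfl).crit a).2 ⟨⟨1 + ((A * w 0 0 + B * w 1 0) * (C * z 0 1 + D * z 1 1) -
      (A * w 0 1 + B * w 1 1) * (C * z 0 0 + D * z 1 0)), by linear_combination d⟩,
    ⟨(A * w 0 1 + B * w 1 1) * (A * z 0 0 + B * z 1 0) -
      (A * w 0 0 + B * w 1 0) * (A * z 0 1 + B * z 1 1), by ring⟩,
    ⟨(C * w 0 0 + D * w 1 0) * (C * z 0 1 + D * z 1 1) -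
      (C * w 0 1 + D * w 1 1) * (C * z 0 0 + D * z 1 0), by ring⟩,
    1 + ((C * w 0 1 + D * w 1 1) * (A * z 0 0 + B * z 1 0) -
      (C * w 0 0 + D * w 1 0) * (A * z 0 1 + B * z 1 1)), by linear_combination d⟩

/-- the congruence subgroup permutes the twisted terms -/
theorem perm (d : Dt N q σ u η) (hF : Md N u 3 F) (ψ : ZMod k → AA N → ℂ) {x γ : Mp} (hx : Dp q x)
    (h : γ ∈ Gm) (h1 : Rm (N * k ^ 2) γ = 1) (e : ∀ y : ℤ, ∀ i j, ∃ z : ℤ,
      (nn (4 * N * (q ^ 2 * y : ℤ) / k) * γ * (nn (4 * N * (q ^ 2 * y : ℤ) / k))⁻¹).g i j =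
        γ.g i j + q ^ 2 * z) :
    sl 3 γ (tw ψ (q ^ 2) (HH N q σ x F)) = tw ψ (q ^ 2) (HH N q σ (x * γ) F) := by
  rw [sl_tw, tw]
  refine Finset.sum_congr rfl fun ν _ => ?_
  have e' := e ν.val
  rw [← Nat.cast_pow] at e'
  have m := mem_Gm.2 fun i j => by
    obtain ⟨z, hz⟩ := e' i j
    obtain ⟨w, hw⟩ := mem_Gm.1 h i j
    exact ⟨w + q ^ 2 * z, by rw [hz, hw]; push_cast; rfl⟩
  rw [← d.hh_eq hF (hx.mul h) (cg hx h e'), ← mv_one (HH N q σ (x * _) F),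
    show (1 : Matrix (AA N) (AA N) ℂ) = Rs N σ _ by rw [Rs, rm_cj _ h h1 m, Matrix.map_one _
      (map_zero σ) (map_one σ)], ← d.hh_r hx m, ← sl_mul, inv_mul_cancel_right]

theorem en_b (d : Dt N q σ u 1) (h : En F g) (b : ℤ) :
    En (sl 3 (aa q) (HH N q σ ((aa q)⁻¹ * nn (4 * N * b : ℤ)) F)) fun n r =>
      (√(q : ℝ) : ℝ) * (ee (n * b / q ^ 2) * g n (q * r)) := fun τ r => by
  have m0 := N_ne (N := N)
  have p1 := p_ne (p := q)
  have s0 := ofReal_ne_zero.2 (sp_ne q)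
  rw [HH, _root_.mul_inv_rev, inv_inv, nn_inv, ← Int.cast_neg, ← mul_neg, d.ps_na]
  simp only [mv, mulVec, dotProduct, Ps_a d.hp, ite_mul, zero_mul, one_mul,
    Finset.sum_ite_eq, Finset.mem_univ, if_true, sl, Pi.smul_apply, smul_eq_mul, Mp.mul_j, ai_j,
    aa_j, nn_j, mul_one, d.rt]
  refine hs_cg ((((h _ _).mul_left _).mul_left _).mul_left _) fun n => ?_
  rw [Mp.mul_g, mul_smul, Mp.inv_g, ai_sm, nn_sm, aa_sm, show (n : ℂ) * ((q ^ 2 * τ +
    ((4 * N * b : ℤ) : ℝ)) / q ^ 2) / (4 * N) = n * b / q ^ 2 + n * τ / (4 * N) by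
      push_cast; field_simp; ring, ee_add, _root_.inv_zpow', neg_neg, _root_.zpow_neg]
  field_simp

end Vale.Agent.P014Y.Z2.Hw
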