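import Vale.Agent.P014Y.Z2.St
import Vale.Agent.P014Y.Z2.Hs0

/-! # P014Y, block Z2: the row `HS` -/

set_option autoImplicit false
set_option linter.all false

noncomputable section

namespace Vale.Agent.P014Y.Z2

open P004Z.W Hw

/-- **the twisted terms** -/
theorem hs : HS := fun N q k _ _ σ u F c φ d hF h w => by
  have : NeZero k := ⟨w.pos⟩
  have k0 : (k : ℝ) ≠ 0 := Nat.cast_ne_zero.2 w.pos
  have per : ∀ n m (r : AA N), n ≡ m [MOD k] → φ n (q * r) = φ m (q * r) :=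
    fun n m r => w.per n m _
  have c1 : ∀ s : ℤ, (((4 * N * k ^ 2 : ℕ) : ℤ) * s : ℤ) = 4 * (N * k ^ 2 : ℕ) * s := fun s => by
    push_cast
    ring
  have tw2 : ∀ {G : UpperHalfPlane → AA N → ℂ} {g}, En G g →
      En (tw (fc (k := k) fun n (r : AA N) => φ n (q * r)) (q ^ 2) G) fun n r => φ n r * g n r :=
    fun h => (en_tw per _ h).cg fun n r => by rw [w.inv]
  refine ⟨fun x => tw (fc (k := k) fun n (r : AA N) => φ n (q * r)) (q ^ 2) (HH N q σ x F),
    d.hp, ?_,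
    fun x y hy e => by rw [d.hh_eq hF hy e], fun x s hx => ?_, fun x s hx => ?_,
    (tw2 (d.en_a h)).cg fun n r => ?_, fun ν => ?_, fun b => ?_⟩
  · push_cast
    exact (cop4 d.hp).mul_left (Nat.isCoprime_iff_coprime.2 w.cop.symm).pow_left
  · refine perm d hF _ hx (nn_mem _) (c1 s ▸ rm_n s) fun y i j => ⟨0, ?_⟩
    rw [← nn_add, add_comm, nn_add, mul_inv_cancel_right, Int.cast_zero, mul_zero, add_zero]
  · have m := nn_mem (((4 * N * k ^ 2 : ℕ) : ℤ) * s)
    refine perm d hF _ hx (mul_mem (mul_mem ss_mem m) (inv_mem ss_mem)) ?_ fun y => ?_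
    · rw [Rm_mul (mul_mem ss_mem m) (inv_mem ss_mem), Rm_mul ss_mem m, c1, rm_n, mul_one,
        ← Rm_mul ss_mem (inv_mem ss_mem), mul_inv_cancel, Rm_one]
    · obtain ⟨i1, i2, i3, i4⟩ := inv_e ss.g
      simp only [Fin.forall_fin_two, nn_inv, Mp.mul_g, Mp.inv_g, mul_e, i1, i2, i3, i4, ss00, ss01,
        ss10, ss11, nn00, nn01, nn10, nn11]
      refine ⟨⟨⟨-(16 * N ^ 2 * k * y * s), ?_⟩, 64 * N ^ 3 * q ^ 2 * y ^ 2 * s, ?_⟩, ⟨0, ?_⟩,
        16 * N ^ 2 * k * y * s, ?_⟩ <;> push_cast <;> field_simp <;> ring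
  · split_ifs with e
    · obtain ⟨m, rfl⟩ := e
      rw [Nat.mul_div_cancel_left _ (pow_pos (NeZero.pos q) 2), Pi.mul_apply, Pi.mul_apply,
        ← w.inv m, (d.mul_iff r _).2 rfl]
      ring
    · simp
  · rw [d.en_n]
    refine (tw2 ((h.n ν).smul _)).cg fun n r => ?_
    simp only [Pi.mul_apply, Pi.smul_apply, smul_eq_mul]
    ring
  · rw [sl_aa]
    refine (en_tw per 1 (en_b d h b)).cg fun n r => ?_
    simp only [Pi.mul_apply, one_mul]
    ring

end Vale.Agent.P014Y.Z2
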