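import Vale.Agent.P014Y.Z2.St
import Vale.Agent.P004Z.W.Br
import Vale.Agent.P004Z.Th.Gau

/-! # P014Y, block Z2: the rows `KIT` and `VT` (helper39) -/

set_option autoImplicit false
set_option linter.all false

open Complex UpperHalfPlane
open scoped NumberTheorySymbols

noncomputable section

namespace Vale.Agent.P014Y.Z2

open P004Z P004Z.Gq P004Z.Hd
open P004Z.W (Dt Md En TH gf ex_dt md_gf en_gf isS_of p_ne)

namespace Kt

variable {N d q l k : ℕ} [NeZero N]

theorem odd (P : q.Prime) (h : ¬ q ∣ 2 * N) : Odd q :=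
  P.odd_of_ne_two fun e => h (e ▸ dvd_mul_right _ _)

theorem un (P : q.Prime) (h : ¬ q ∣ 2 * N) : IsUnit (q : ZMod (2 * N)) :=
  (ZMod.isUnit_iff_coprime _ _).2 (P.coprime_iff_not_dvd.2 h)

theorem mi (P : q.Prime) (h : ¬ q ∣ 2 * N) (r : ZMod (2 * N)) :
    q * ((q : ZMod (2 * N))⁻¹ * r) = r := by
  rw [← mul_assoc, ZMod.mul_inv_of_unit _ (un P h), one_mul]

theorem im (P : q.Prime) (h : ¬ q ∣ 2 * N) (r : ZMod (2 * N)) :
    (q : ZMod (2 * N))⁻¹ * (q * r) = r := by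
  rw [← mul_assoc, ZMod.inv_mul_of_unit _ (un P h), one_mul]

theorem eta (m : d % 4 = 3) (o : Odd q) (c : q.Coprime d) : J(q | d) * J(-d | q) = 1 := by
  rw [J_flip m o, J_cop c]

theorem ex (ok : Ok N d) (m : d % 4 = 3) [P : Fact q.Prime] (h : ¬ q ∣ 2 * N) :
    ∃ σ u, (4 * N : ℤ) ∣ u * d + 1 ∧ Dt N q σ u 1 := by
  have c : d.Coprime (4 * N) :=
    (((Nat.coprime_two_left.2 ok.odd).pow_left 2).mul_left ok.cop).symm
  obtain ⟨e, g, E, md⟩ := Nat.forall_exists_prime_gt_and_modEq q (NeZero.ne (4 * N)) c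
  have m' : e % 4 = 3 := Eq.trans (md.of_mul_right N) m
  have qe : q.Coprime e := (Nat.coprime_primes P.out E).2 g.ne
  have ce : (4 * N).Coprime e := by
    rw [Nat.Coprime, Nat.gcd_comm, md.gcd_eq]; exact c
  obtain ⟨σ, u, hu, D⟩ := ex_dt (p := q) (δ := e)
    ⟨Nat.odd_iff.2 (by omega), E.squarefree, E.one_lt, ce.coprime_mul_left⟩ fun t =>
      ((P.out.dvd_mul).1 t).elim h (P.out.coprime_iff_not_dvd.1 qe)
  rw [eta m' (odd P.out h) qe, Int.cast_one] at D
  have := Nat.modEq_iff_dvd.1 md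
  push_cast at this
  exact ⟨σ, u, (hu.add (this.mul_left u)).trans (dvd_of_eq (by ring)), D⟩

theorem jq [Fact q.Prime] (n : ℕ) : (J(n | q) : ℂ) = qc q n := by
  have := J_qc (p := q) n
  rwa [Int.cast_natCast] at this

theorem isS (ok : Ok N d) (m : d % 4 = 3) (P : q.Prime) (h : ¬ q ∣ 2 * N) {x : Cf N}
    (hx : IsS d x) : IsS d (T3 q x) := by
  have := Fact.mk P
  obtain ⟨σ, u, hu, D⟩ := ex ok m h
  rcases eq_or_ne x 0 with rfl | h0
  · rwa [show T3 q (0 : Cf N) = 0 by funext n r; simp [T3]]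
  have M := md_gf hu hx
  refine isS_of hu hx h0 (((D.md M).smul (q : ℂ)⁻¹).add (M.smul (-1)))
    ((((D.en (en_gf hx)).smul _).add ((en_gf hx).smul _)).cg fun n r => ?_)
    fun r => by simp [T3, hx.zero]
  simp only [T3, jq, Pi.smul_apply, Pi.add_apply, smul_eq_mul, inv_mul_cancel_left₀ p_ne]
  split_ifs <;> ring

theorem jsq (h : l.Coprime q) (n : ℕ) : J((l ^ 2 * n : ℕ) | q) = J(n | q) := by
  rw [Nat.cast_mul, Nat.cast_pow, jacobiSym.mul_left, jacobiSym.pow_left, jacobiSym.sq_one (by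
      rw [Int.gcd_natCast_natCast]; exact h), one_mul]

theorem comm (hl : l ≠ 0) (hp : q ≠ 0) (h : l.Coprime q) (x : Cf N) :
    T3 l (T3 q x) = T3 q (T3 l x) := by
  funext n r
  have c1 : (q ^ 2).Coprime (l ^ 2) := Nat.Coprime.pow 2 2 h.symm
  have l0 := pow_pos (Nat.pos_of_ne_zero hl) 2
  have p0 := pow_pos (Nat.pos_of_ne_zero hp) 2
  simp only [T3, jsq h, jsq h.symm, c1.dvd_mul_left, c1.symm.dvd_mul_left,
    mul_left_comm (q ^ 2) (l ^ 2), mul_left_comm (q : ZMod (2 * N)) l,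
    mul_left_comm (q : ZMod (2 * N))⁻¹ l, mul_left_comm (l : ZMod (2 * N))⁻¹ q,
    mul_left_comm (q : ZMod (2 * N))⁻¹ (l : ZMod (2 * N))⁻¹]
  by_cases h1 : l ^ 2 ∣ n <;> by_cases h2 : q ^ 2 ∣ n
  · obtain ⟨k, rfl⟩ := c1.symm.mul_dvd_of_dvd_of_dvd h1 h2
    have e1 : l ^ 2 * q ^ 2 * k / l ^ 2 = q ^ 2 * k := by rw [mul_assoc, Nat.mul_div_cancel_left _ l0]
    have e2 : l ^ 2 * q ^ 2 * k / q ^ 2 = l ^ 2 * k := by
      rw [mul_right_comm, Nat.mul_div_cancel _ p0]
    have j1 := jsq h (q ^ 2 * k)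
    have j2 := jsq h.symm (l ^ 2 * k)
    rw [← mul_assoc (l ^ 2)] at j1
    rw [← mul_assoc (q ^ 2), mul_comm (q ^ 2)] at j2
    simp only [h1, h2, if_true, Nat.mul_div_assoc _ h1, Nat.mul_div_assoc _ h2, e1, e2,
      dvd_mul_right, Nat.mul_div_cancel_left _ l0, Nat.mul_div_cancel_left _ p0, j1, j2]
    ring
  · obtain ⟨k, rfl⟩ := h1
    have h3 : ¬ q ^ 2 ∣ k := fun q => h2 (q.mul_left _)
    simp only [h2, h3, dvd_mul_right, if_true, if_false, Nat.mul_div_cancel_left _ l0, jsq h,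
      mul_left_comm (q ^ 2) (l ^ 2)]
    ring
  · obtain ⟨k, rfl⟩ := h2
    have h3 : ¬ l ^ 2 ∣ k := fun q => h1 (q.mul_left _)
    simp only [h1, h3, dvd_mul_right, if_true, if_false, Nat.mul_div_cancel_left _ p0, jsq h.symm,
      mul_left_comm (l ^ 2) (q ^ 2) k]
    ring
  · simp only [h1, h2, if_false]
    ring

theorem wt (P : q.Prime) (h : ¬ q ∣ 2 * N) {φ : Cf N} (w : Wt q k φ) (x : Cf N) :
    T3 q (φ * x) = φ * T3 q x := by
  funext n r
  simp only [T3, Pi.mul_apply, w.inv]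
  split_ifs with e
  · obtain ⟨j, rfl⟩ := e
    have := w.inv j ((q : ZMod (2 * N))⁻¹ * r)
    rw [mi P h] at this
    rw [Nat.mul_div_cancel_left _ (pow_pos P.pos 2), this]
    ring
  · ring

theorem q0 [Fact q.Prime] {n : ℕ} (h : q ∣ n) : qc q n = 0 := by
  rw [(ZMod.natCast_eq_zero_iff n q).2 h, qc_zero]

end Kt

open Kt

theorem kit : KIT := fun N d _ ok m q P h => by
  refine ⟨fun [_] => ex ok m h, fun t x => ?_, fun x => isS ok m P h, fun l L _ x => ?_,
    fun k φ x w => wt P h w x⟩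
  · funext n r
    rw [TT, T3, ← neg_mul, jacobiSym.mul_left, ← mul_assoc,
      eta m (odd P h) (P.coprime_iff_not_dvd.2 t), one_mul]
  · rcases eq_or_ne l q with rfl | e
    · rfl
    exact comm L.ne_zero P.ne_zero ((Nat.coprime_primes L P).2 e) x

theorem vt (hs : HS) (v0 : VAN0) (v1 : VAN1) : VT := fun N d q k _ φ x ok m P h w hx => by
  have := Fact.mk P
  obtain ⟨σ, u, hu, D⟩ := ex ok m h
  obtain ⟨H, hH⟩ := hs N q k σ u _ x φ D (md_gf hu hx) (en_gf hx) w
  generalize φ * x = c at hH ⊢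
  have p0 := pow_pos P.pos 2
  have qq : q ∣ q ^ 2 := dvd_pow_self q two_ne_zero
  refine ⟨fun hv => ?_, fun e he hv => ?_⟩
  · have K := v0 N q _ H c 1 hH (one_mul 1) fun n r => by
      rw [← jq]
      rcases jacobiSym.trichotomy n q with e | e | e
      · simp [e]
      · simp [e]
      · rw [hv n r e, mul_zero]
    funext n r
    have k1 := K n r
    have k2 := K (q ^ 2 * n) (q * r)
    rw [if_pos (dvd_mul_right _ _), Nat.mul_div_cancel_left _ p0, im P h,
      q0 (qq.mul_right n)] at k2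
    simp only [T3, jq, Pi.smul_apply, smul_eq_mul]
    split_ifs at k1 ⊢ <;> linear_combination k1 - k2
  · obtain ⟨A, B⟩ := v1 N q _ H c e hH (by exact_mod_cast he) fun n r t =>
      hv n r (by rw [← jq] at t; exact_mod_cast t)
    have T : ∀ n r, q * T3 q c n r = (q + 1) * c (q ^ 2 * n) (q * r) := fun n r => by
      have := B n r
      simp only [T3, jq]
      split_ifs at this ⊢ <;> linear_combination -this
    funext n r
    refine mul_left_cancel₀ (p_ne (p := q)) ?_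
    have t1 := T (q ^ 2 * n) (q * r)
    have b1 := B (q ^ 2 * n) (q * r)
    have t2 := T n r
    have b2 := B n r
    rw [if_pos (dvd_mul_right _ _), Nat.mul_div_cancel_left _ p0, im P h,
      q0 (qq.mul_right n)] at b1
    rw [T3, jq, Pi.smul_apply, Pi.smul_apply, smul_eq_mul]
    by_cases e2 : q ^ 2 ∣ n
    · have z := q0 (qq.trans e2)
      obtain ⟨j, rfl⟩ := e2
      have t3 := T j ((q : ZMod (2 * N))⁻¹ * r)
      rw [mi P h] at t3
      rw [if_pos (dvd_mul_right _ _), Nat.mul_div_cancel_left _ p0, z]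
      linear_combination t1 + (q + 1) * b1 + q * t3
    rw [if_neg e2] at b2 ⊢
    by_cases e1 : q ∣ n
    · have z := q0 e1
      obtain ⟨j, rfl⟩ := e1
      have a := A j r fun t => e2 (by rw [sq]; exact Nat.mul_dvd_mul_left q t)
      rw [z]
      linear_combination t1 + (q + 1) * b1 - q * (q + 1) * a
    · have z := qc_sq (p := q) (x := n) fun t => e1 ((ZMod.natCast_eq_zero_iff n q).1 t)
      linear_combination t1 + (q + 1) * b1 + qc q n * t2 + (q + 1) * qc q n * b2 +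
        q * (q + 1) * c n r * z

end Vale.Agent.P014Y.Z2
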