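import Vale.Agent.P014Y.Z2.Bas
import Vale.Agent.P014T.Z.Wn
import Vale.Agent.P014T.Es.Md

/-! # P014Y, block Z2: row `PTS` -/

set_option autoImplicit false
set_option linter.all false

open Complex UpperHalfPlane Filter Topology CongruenceSubgroup
open scoped NumberTheorySymbols MatrixGroups

noncomputable section

namespace Vale.Agent.P014Y.Z2

open P004Z P004Z.Ar P004Z.Hd P004Z.W2
open P004N (RN ALw)
open P014T.Z (Hg B0 ix lC yK)
open P014T.Z.Wn (ws_fr Zp_fr1)
open P014T.Es (cv tend cv_one cv_mem md mb_top)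

namespace Pt

variable {N d : ℕ} {β : ℤ} {G : ℍ → ℂ} {a : ℕ → ℤ}

/-- the genus character of `d` is trivial on the positive forms of discriminant `-d` -/
theorem gc_one (hs : Squarefree d) (m4 : d % 4 = 3) {l : Fm} (e : disc l = -d) (p : 0 < l.1) :
    gc d l = 1 := by
  have o : Odd d := Nat.odd_iff.2 (by omega)
  obtain ⟨γ, k⟩ := rep (S := 2 * d) (l := l) (by omega) fun q hq _ x y w =>
    (Nat.prime_iff_prime_int.1 hq).not_unit (Int.squarefree_natCast.2 hs q (dvd_neg.1 (e ▸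
      dvd_sub (sq l.2.1 ▸ mul_dvd_mul y y) (mul_dvd_mul (x.mul_left 4) w))))
  have e' := (disc_fa l γ).trans e
  have a0 := pos_fa (by omega) p γ
  rw [← gc_fa o (e ▸ dvd_neg.2 dvd_rfl) γ]
  generalize fa l γ = m at *
  rw [disc] at e'
  obtain ⟨c, hc⟩ : ∃ c : ℕ, m.2.2 = c := ⟨m.2.2.toNat, (Int.toNat_of_nonneg (by
    by_contra! H
    nlinarith [mul_pos a0 (neg_pos.2 H), sq_nonneg m.2.1])).symm⟩
  have v : val m 0 1 = c := by simp [val, hc]
  rw [hc] at k e'
  rw [gc_eq o hs (by rw [disc, hc, e']; simp) (v ▸ k.of_mul_right_right), v, ← Gq.J_flip m4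
    (Nat.coprime_two_right.1 (Nat.isCoprime_iff_coprime.1 k.of_mul_right_left)),
    J_congr (b := m.2.1 ^ 2) ⟨-4 * m.1, by linear_combination -e'⟩]
  refine jacobiSym.sq_one' (Int.isCoprime_iff_gcd_eq_one.1 ((IsCoprime.pow_left_iff two_pos).1 ?_))
  rw [show m.2.1 ^ 2 = -d + c * (4 * m.1) by linear_combination e']
  exact k.of_mul_right_right.symm.neg_left.add_mul_left_left _

theorem zp_eq (h : Hg N d β) (r : ZMod (2 * N)) : Zp N d 1 r = Zp N 1 d r :=
  funext fun z => finsum_congr fun l => if_ctx_congr (and_congr_left' (by simp)) (fun k => by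
    have e : disc l = -d := by simpa using k.1
    rw [ph, ph, gc_one h.sq (Hg.m4 h) e k.2.2]
    simp [e, gc]) fun _ => rfl

variable [NeZero N]

/-- the point of the cusp `0` is torsion -/
theorem frc (D : Pz N a) (h : RN N G a) (w : ALw N N G (-1)) {l : ℂ →+ ℂ} (hl : D.Ki l) (z : ℍ) :
    l (D.I (fr N z)) = -l (D.I z) := by
  obtain ⟨C, hC⟩ := (prt.2 N G a D h).2 (-1) w
  obtain ⟨n, n0, hn⟩ := md h D.par
  have p : 0 < (!![(N : ℤ), 0; 0, 1] : P004N.H461.M2).det := by simpa using h.pos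
  have := P014T.Es.neBot
  have t := (tend h D.par 1).const_mul (((-1 : ℝ) : ℂ)) |>.add_const C
  have e := tendsto_nhds_unique ((tend h D.par ModularGroup.S).comp (mb_top p (by simp)))
    (t.congr fun z => by
      rw [one_smul]
      refine (hC z _ ?_).symm
      rw [W.coe_S, coe_mb p]
      simp [neg_div])
  have k := hl _ (hn _ (cv_mem D.I ModularGroup.S))
  rw [e, cv_one h D.par, mul_zero, zero_add, ← nsmul_eq_mul, map_nsmul, nsmul_eq_mul] at k
  rw [hC z _ (coe_fr z), map_add, (mul_eq_zero.1 k).resolve_left (Nat.cast_ne_zero.2 n0.ne')]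
  simp

end Pt

open Pt in
/-- **row `PTS`** -/
theorem pts : PTS := fun N _ G a D d β s l hG w h hs => by
  have ki : D.Ki (lC D l) := fun u hu => by simp [lC, (D.ker u).2 hu]
  have o := Hg.ok h
  have f : ∀ (r : ZMod (2 * N)) z, Zp N 1 d r z ≠ 0 → ∀ γ : SL(2, ℤ), γ • z = z →
      γ = 1 ∨ γ = -1 := fun r z hz => by
    obtain ⟨l, a, b, -⟩ := Zp_ne hz
    exact free (y := 1) (d := d) one_ne_zero (by exact_mod_cast h.m8) (by simpa using a) b
  have e : ∀ z, B0 N d β (fr N z) = Zp N 1 d (-β) z := fun z => by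
    rw [← Zp_fr1 (-β) z, neg_neg, B0]
  obtain ⟨k, k'⟩ := ws_fr (B := B0 N d β) (F := lC D l ∘ D.I) (fun γ a z => Zp_inv odd_one a z)
    (fun z hz => hz.elim (f _ z) fun q => f _ z (e z ▸ q)) hs fun γ hγ z => sub_eq_zero.1
      (((lC D l).map_sub _ _).symm.trans (ki _ (D.inv γ hγ z)))
  have e3 : evd s (B0 N d β) (lC D l ∘ D.I) = (l (yK D (B0 N d β) s) : ℝ) := by
    simp only [evd, yK, map_sum, map_zsmul, zsmul_eq_mul]
    push_cast
    rfl
  simp only [e, Function.comp, frc D hG w ki] at k'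
  rw [P014T.Zd.xd, show cs (Zd N d 1 β) = cs (Zp N d 1 β) + (eps d : ℂ) • cs (Zp N d 1 (-β)) from
    funext fun z => by simp [cs, Zd_eq o], ws_add (Zp_dv o _) ((Zp_dv o _).smul _), ws_smul,
    zp_eq h, zp_eq h, (Hg.d1 h).eps, ← e3]
  refine (congrArg₂ _ k (congrArg _ k')).trans ?_
  simp only [evd, Function.comp, mul_neg, Finset.sum_neg_distrib]
  push_cast
  ring

end Vale.Agent.P014Y.Z2
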