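import Vale.Agent.P014Y.Z2.Bas

/-! # P014Y, block Z2: the rows SH1 and REP -/

set_option autoImplicit false
set_option linter.all false

open Complex UpperHalfPlane
open scoped Real ComplexConjugate NumberTheorySymbols

noncomputable section

namespace Vale.Agent.P014Y.Z2

open P004Z P004Z.Gl
open P004N (S2 QE TE RN)
open P014T.Z (Pz1 L0)

namespace Rp

variable {N : ℕ} [NeZero N] {d l p : ℕ} {ρ : ZMod (2 * N)} {G : ℍ → ℂ} {a : ℕ → ℤ}

theorem tc_comm (hl : l.Prime) (hp : p.Prime) (c : ℕ → ℂ) : Tc p (Tc l c) = Tc l (Tc p c) := by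
  rcases eq_or_ne l p with rfl | h
  · rfl
  have c1 := (Nat.coprime_primes hl hp).2 h
  funext n
  simp only [Tc, c1.dvd_mul_left, c1.symm.dvd_mul_left, mul_left_comm l p n]
  by_cases a : l ∣ n <;> by_cases b : p ∣ n
  · obtain ⟨k, rfl⟩ := c1.mul_dvd_of_dvd_of_dvd a b
    have e1 : l * p * k / l = p * k := by rw [mul_assoc, Nat.mul_div_cancel_left _ hl.pos]
    have e2 : l * p * k / p = l * k := by
      rw [mul_comm l, mul_assoc, Nat.mul_div_cancel_left _ hp.pos]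
    rw [Nat.mul_div_assoc p a, Nat.mul_div_assoc l b, e1, e2]
    simp only [a, b, dvd_mul_right, if_true, Nat.mul_div_cancel_left _ hl.pos,
      Nat.mul_div_cancel_left _ hp.pos]
    ring
  · have : ¬ p ∣ n / l := fun e => b (e.trans (Nat.div_dvd_of_dvd a))
    simp [a, b, this, Nat.mul_div_assoc p a]
  · have : ¬ l ∣ n / p := fun e => a (e.trans (Nat.div_dvd_of_dvd b))
    simp [a, b, this, Nat.mul_div_assoc l b]
  · simp [a, b]

theorem tt_eq (h : D1 N d ρ) (hl : l.Prime) (h1 : ¬ l ∣ 2 * N * d) (x : Cf N) :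
    TT d l x = T3 l x := by
  have o : Odd l := hl.odd_of_ne_two fun q => h1 (q ▸ (dvd_mul_right 2 N).mul_right d)
  funext n r
  rw [TT, T3, ← neg_mul, jacobiSym.mul_left, Gq.J_flip h.m4 o, ← mul_assoc, ← pow_two,
    jacobiSym.sq_one (by
      rw [Int.gcd_natCast_natCast]
      exact hl.coprime_iff_not_dvd.2 fun q => h1 (q.mul_left _)), one_mul]

theorem shc_eq (ρ : ZMod (2 * N)) (y : Cf N) :
    shc 1 ρ y = fun j => ∑ i ∈ j.divisors, 1 * y (i ^ 2) (ρ⁻¹ * i) := funext fun j => by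
  rw [← Nat.sum_divisorsAntidiagonal fun a _ => 1 * y (a ^ 2) (ρ⁻¹ * a), shc]
  simp

/-- the Shimura lift of index one commutes with `T_l` -/
theorem sht (hl : l.Prime) (h1 : ¬ l ∣ 2 * N) (ρ : ZMod (2 * N)) (x : Cf N) :
    shc 1 ρ (T3 l x) = Tc l (shc 1 ρ x) := by
  funext j
  have hco : l.Coprime (2 * N) := hl.coprime_iff_not_dvd.2 h1
  have : NeZero l := ⟨hl.ne_zero⟩
  rw [shc_eq, shc_eq, ← Lf.Wl.conv hl (fun _ => 1) (fun i => x (i ^ 2) (ρ⁻¹ * i))
    (fun _ _ => (one_mul _).symm)]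
  refine Finset.sum_congr rfl fun i _ => ?_
  congr 1
  rw [T3, mul_pow, Nat.cast_mul, mul_left_comm, Nat.cast_pow, jacobiSym.pow_left]
  by_cases k : l ∣ i
  · obtain ⟨k, rfl⟩ := k
    rw [if_pos (dvd_mul_right _ _), if_pos (dvd_mul_right _ _), if_pos ⟨k ^ 2, by ring⟩,
      Nat.mul_div_cancel_left _ hl.pos, mul_pow l k, Nat.mul_div_cancel_left _ (pow_pos hl.pos 2),
      (jacobiSym.eq_zero_iff_not_coprime (a := (l * k : ℕ))).2 (by
        rw [Int.gcd_natCast_natCast]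
        exact fun e => hl.coprime_iff_not_dvd.1 (Nat.Coprime.symm e) (dvd_mul_right _ _)),
      show (l : ZMod (2 * N))⁻¹ * (ρ⁻¹ * (l * k : ℕ)) = ρ⁻¹ * k by
        push_cast
        linear_combination (ρ⁻¹ * k) * ZMod.coe_mul_inv_eq_one l hco]
    simp
  · rw [if_neg k, if_neg k, if_neg fun e => k (hl.dvd_of_dvd_pow
      ((dvd_pow_self l two_ne_zero).trans e)), jacobiSym.sq_one (by
        rw [Int.gcd_natCast_natCast]
        exact (hl.coprime_iff_not_dvd.2 k).symm)]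
    simp

theorem nd (h : Pz1 N p) : ¬ p ∣ N := fun e => by
  have e1 : (p : ℤ) ∣ 4 * N := (Int.natCast_dvd_natCast.2 e).mul_left 4
  have e3 : (p : ℤ) ∣ 1 := by simpa using dvd_sub (dvd_refl (p : ℤ)) (e1.trans h.one)
  exact h.pr.one_lt.ne' (Nat.dvd_one.1 (Int.natCast_dvd_natCast.1 e3))

theorem al_ne (h : Pz1 N p) (hG : RN N G a) : (a p - p - 1 : ℂ) ≠ 0 := fun e =>
  (triv N G a hG p h.pr (nd h)).1 (by
    have : ((a p : ℤ) : ℂ) = ((p + 1 : ℤ) : ℂ) := by push_cast; linear_combination e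
    exact_mod_cast this)

theorem qe_ext {f g : ℍ → ℂ} {c : ℕ → ℂ} (h : QE f c) (k : QE g c) : f = g :=
  funext fun z => (h z).unique (k z)

/-- the smoothed Shintani lift of a newform is an eigenform -/
theorem sn_eig (shi : SHI1) (ws : WS1) (h : D1 N d ρ) (hp : Pz1 N p) (hG : RN N G a) :
    Eig d (2 * N * d) a (sn1 p ρ G) := by
  obtain ⟨hs, adj⟩ := ws N d p ρ G h hp hG.s2
  obtain ⟨-, -, sa⟩ := pet2_all N hG.pos
  intro l hl h2
  have h3 : ¬ l ∣ N := fun e => h2 ((e.mul_left _).mul_right _)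
  refine Lf.Wl.eq_of_B g2.2.1 h.ok (a l) hs (hecke N _ l h.ok hl h2 _ hs) fun y hy => ?_
  have hy' := hecke N _ l h.ok hl h2 y hy
  rw [B, ← self g2.2.1 N _ l h.ok hl h2 y _ hy hs, ← B, adj _ hy', adj _ hy]
  have q1 := (shi N d p ρ _ h hp hy').2
  rw [tt_eq h hl h2, sht hl (fun e => h2 (e.mul_right _)), tc_comm hl hp.pr, ← tt_eq h hl h2] at q1
  have q2 : QE ((a l : ℂ) • G) (Tc l fun n => (a n : ℂ)) := by
    have : (Tc l fun n => (a n : ℂ)) = (a l : ℂ) • fun n => (a n : ℂ) :=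
      funext fun n => hG.te l hl h3 n
    rw [this]
    exact P004N.H461.QE.smul hG.qe _
  have q3 : (fun j => -(4 * Complex.I * N * p) * (Tc l (Tc p (shc 1 ρ y)) j -
      (p + 1) * Tc l (shc 1 ρ y) j)) = Tc l fun j => -(4 * Complex.I * N * p) *
        (Tc p (shc 1 ρ y) j - (p + 1) * shc 1 ρ y j) := funext fun n => by
    generalize Tc p (shc 1 ρ y) = A
    simp only [Tc]
    split_ifs <;> ring
  rw [sa l _ G _ _ _ _ hl h3 (shi N d p ρ y h hp hy).1 hG.s2 (shi N d p ρ y h hp hy).2 hG.qe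
    (q3 ▸ q1) q2]
  simpa using Lf.Wl.pet2_smul N 1 (a l) (sh1 p ρ y) G

end Rp

open Rp

theorem sh1_of (shi : SHI1) : SH1 := fun N d S _ ρ G a x h hG hS hx j => by
  have S0 : S * (2 * N * d) ≠ 0 :=
    mul_ne_zero hS (mul_ne_zero (NeZero.ne _) h.ok.sq.ne_zero)
  obtain ⟨p, hp, pS⟩ := ex_pz N S0
  have te : ∀ l : ℕ, l.Prime → ¬ l ∣ S * (2 * N * d) → ∀ n,
      Tc l (shc 1 ρ x) n = a l * shc 1 ρ x n := fun l hl k n => by
    have k' : ¬ l ∣ 2 * N * d := fun e => k (e.mul_left _)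
    rw [← sht hl (fun e => k' (e.mul_right _)), ← tt_eq h hl k',
      hx.e l hl fun e => k (e.mul_right _), shc, shc, Finset.mul_sum]
    exact Finset.sum_congr rfl fun _ _ => by simp only [Pi.smul_apply, smul_eq_mul]; ring
  obtain ⟨s1, s2⟩ := shi N d p ρ x h hp hx.s
  simp only [te p hp.pr pS] at s2
  obtain ⟨κ, hκ⟩ := smo N _ G a hG S0 _ _ s1 s2 fun l hl k n => by
    have := te l hl k n
    rw [Tc] at this
    split_ifs at this ⊢ <;> linear_combination -(4 * Complex.I * N * p) * (a p - (p + 1)) * this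
  rw [show sh1 p ρ x = κ • G from funext hκ] at s2
  have e := congrFun (P004N.H461.QE.unique s2 (P004N.H461.QE.smul hG.qe κ))
  have e1 := e 1
  have e2 : shc 1 ρ x 1 = x 1 ρ⁻¹ := by simp [shc_eq]
  simp only [e2, hG.one, Int.cast_one, mul_one] at e1
  have n : -(4 * Complex.I * N * p) * (a p - p - 1 : ℂ) ≠ 0 := mul_ne_zero
    (by simp [NeZero.ne N, hp.pr.ne_zero]) (al_ne hp hG)
  exact mul_left_cancel₀ n (by linear_combination e j - a j * e1)

theorem rep (shi : SHI1) (ws : WS1) (wc : WC1) : REP := fun N d _ ρ G a h hG => by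
  obtain ⟨p, hp, -⟩ := ex_pz N one_ne_zero
  obtain ⟨hs, adj⟩ := ws N d p ρ G h hp hG.s2
  have n := al_ne hp hG
  have n' : (p : ℂ) ≠ 0 := Nat.cast_ne_zero.2 hp.pr.ne_zero
  refine ⟨((p : ℂ) * (a p - p - 1))⁻¹ • sn1 p ρ G, ⟨Lf.Wl.isS_smul _ hs, fun l hl k => ?_⟩, ?_,
    fun S y hS hy => ?_⟩
  · funext m r
    have h3 := congrFun (congrFun (sn_eig shi ws h hp hG l hl k) m) r
    generalize ((p : ℂ) * (a p - p - 1))⁻¹ = c
    simp only [TT, Pi.smul_apply, smul_eq_mul] at h3 ⊢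
    split_ifs at h3 ⊢ <;> linear_combination c * h3
  · rw [Pi.smul_apply, Pi.smul_apply, wc N p ρ G a h.un hp hG, smul_eq_mul]
    field_simp
  · have q := (shi N d p ρ y h hp hy.s).2
    rw [show shc 1 ρ y = fun j => y 1 ρ⁻¹ * a j from
      funext (sh1_of shi N d S ρ G a y h hG hS hy)] at q
    have e : sh1 p ρ y = (-(4 * Complex.I * N * p) * (a p - p - 1) * y 1 ρ⁻¹) • G := by
      refine qe_ext q ?_
      convert P004N.H461.QE.smul hG.qe _ using 2 with m
      have := hG.te p hp.pr (nd hp) m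
      rw [Tc]
      split_ifs at this ⊢ <;> linear_combination -(4 * Complex.I * N * p) * y 1 ρ⁻¹ * this
    have f := Lf.Wl.pet2_smul N (-(4 * Complex.I * N * p) * (a p - p - 1) * y 1 ρ⁻¹) 1 G G
    rw [one_smul, ← e, ← adj y hy.s] at f
    rw [B_conj, B_smul, map_mul, ← B_conj, f]
    simp only [map_inv₀, map_mul, map_sub, map_natCast, map_intCast, map_one]
    field_simp

end Vale.Agent.P014Y.Z2
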