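import Vale.Agent.P014Y.Z2.Bas
import Vale.Agent.P014P.Zero

/-! # P014Y, block Z2: the lifts of index one, by transport to `ρ = 1` -/

set_option autoImplicit false
set_option linter.all false

open Complex Finset
open scoped Real NumberTheorySymbols

noncomputable section

namespace Vale.Agent.P014Y.Z2

open P004Z P004Z.Gq P004Z.Hd
open P004N (S2 QE RN)
open P014T.Z (Pz1 L0 ps)
open P014T.An (M0)
open P014P (Dd shp snp sc1)

namespace Tra

variable {N : ℕ} [NeZero N] {d e p : ℕ} {ρ σ u : ZMod (2 * N)}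

theorem ex_d (h : Pz1 N p) : ∃ d, Dd N p d := by
  have n0 := NeZero.pos N
  obtain ⟨d, d1, d2, d3⟩ := Nat.forall_exists_prime_gt_and_modEq p (q := 8 * N)
    (a := 8 * N - 1) (by omega) (by
      rw [Nat.coprime_comm, Nat.coprime_self_sub_right (by omega)]; exact Nat.coprime_one_right _)
  have e : (8 * N : ℤ) ∣ d + 1 := by
    have := (Nat.modEq_iff_dvd.1 (d3.add_right 1).symm)
    rw [Nat.sub_add_cancel (by omega)] at this
    simpa using dvd_add this dvd_rfl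
  have e8 := (dvd_mul_right (8 : ℤ) N).trans e
  have o : Odd d := Nat.odd_iff.2 (by omega)
  have j : J(N | d) = 1 := J_all N n0.ne' fun q hq k => by
    rcases eq_or_ne q 2 with rfl | h2
    · rw [Nat.cast_ofNat, jacobiSym.at_two o, ZMod.χ₈_nat_eq_if_mod_eight, if_neg (by omega),
        if_pos (by omega)]
    · rw [← J_flip (by omega) (hq.odd_of_ne_two h2), J_congr (b := 1), jacobiSym.one_left]
      rw [show -(d : ℤ) - 1 = -(d + 1) by ring, dvd_neg]
      exact ((Int.natCast_dvd_natCast.2 k).mul_left 8).trans e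
  exact ⟨d, ⟨o, d2.squarefree, d2.one_lt, cop_J d2.ne_zero j⟩,
    Dvd.dvd.trans ⟨2, by ring⟩ e, j, h,
    fun k => d1.ne ((Nat.prime_dvd_prime_iff_eq h.pr d2).1 k)⟩

theorem d1 (h : Dd N p d) : D1 N d 1 := by
  have : Fact (1 < 2 * N) := ⟨by have := NeZero.pos N; omega⟩
  exact ⟨h.ok, isUnit_one, by simpa [ZMod.val_one] using h.sq, h.J⟩

theorem in_iff (h : D1 N d ρ) (n : ℤ) (s : ZMod (2 * N)) :
    In N d n s ↔ (4 * N : ℤ) ∣ ((ρ * s).val : ℤ) ^ 2 - n := by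
  have a : (2 * N : ℤ) ∣ ((ρ * s).val : ℤ) - ρ.val * s.val := by
    have := dvd_val (n := 2 * N) ((ρ.val : ℤ) * s.val)
    simpa using this
  have b := sq_dvd a
  constructor
  · intro k
    refine ((b.add (Dvd.dvd.mul_left k ((ρ.val : ℤ) ^ 2))).sub (h.sq.mul_left n)).trans
      (dvd_of_eq ?_)
    ring
  · intro k
    refine ((h.sq.mul_left ((s.val : ℤ) ^ 2)).sub ((k.sub b).mul_left d)).trans (dvd_of_eq ?_)
    ring

/-- the change of the index -/
def tr (u : ZMod (2 * N)) (x : Cf N) : Cf N := fun n r => x n (u * r)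

theorem sum_u {u : ZMod (2 * N)} (hu : IsUnit u) (f : ZMod (2 * N) → ℂ) :
    ∑ s, f (u * s) = ∑ s, f s := Equiv.sum_comp hu.unit.mulLeft f

theorem isS_tr (h : D1 N d ρ) (h' : D1 N e σ) (hu : ρ * u = σ) {x : Cf N} (hx : IsS d x) :
    IsS e (tr u x) := by
  have u1 : IsUnit u := isUnit_of_mul_isUnit_right (hu ▸ h'.un)
  refine ⟨fun r => hx.zero _, fun n r k => ?_, fun r τ hτ => hx.sum _ τ hτ, fun τ hτ r => ?_⟩
  · have := (in_iff h _ _).1 (hx.sup n _ k)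
    rw [← mul_assoc, hu] at this
    exact (in_iff h' _ _).2 this
  · refine (hx.law τ hτ (u * r)).trans (congrArg _ ?_)
    rw [← sum_u u1]
    refine sum_congr rfl fun s _ => ?_
    have a := h.sm_dual (u * r) (u * s)
    rw [← mul_assoc, ← mul_assoc, hu, ← h'.sm_dual] at a
    rw [mul_left_cancel₀ I_ne_zero a]
    rfl

theorem inv_un (h : IsUnit ρ) : IsUnit ρ⁻¹ :=
  IsUnit.of_mul_eq_one _ (ZMod.inv_mul_of_unit _ h)

theorem sh1_eq (h : IsUnit ρ) (x : Cf N) : sh1 p ρ x = shp p (tr ρ⁻¹ x) := by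
  funext z
  rw [sh1, shp]
  congr 1
  funext τ
  rw [← sum_u (inv_un h)]
  simp only [← mul_assoc, ZMod.mul_inv_of_unit _ h, one_mul]
  rfl

theorem shc_eq (x : Cf N) : shc 1 ρ x = sc1 (tr ρ⁻¹ x) := by
  funext j
  rw [shc, sc1, Nat.sum_divisorsAntidiagonal fun a b : ℕ =>
    (J(b | 1) : ℂ) * x (1 * a ^ 2) (ρ⁻¹ * (1 : ℕ) * a)]
  simp [tr]

theorem B_tr (h : IsUnit u) (x y : Cf N) : Gl.B (tr u x) (tr u y) = Gl.B x y := by
  rw [Gl.B, Gl.B, pet, pet]
  congr 1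
  funext τ
  rw [← sum_u h fun r => fn x r τ * _]
  rfl

theorem tr_sn (h : IsUnit ρ) (G : UpperHalfPlane → ℂ) : tr ρ⁻¹ (sn1 p ρ G) = snp p G := by
  funext n r
  simp only [tr, sn1, snp, ← mul_assoc, ZMod.mul_inv_of_unit _ h, one_mul]

end Tra

open Tra

theorem shi1 : SHI1 := fun N d p _ ρ x h hp hx => by
  obtain ⟨e, k⟩ := ex_d hp
  have s := isS_tr h (d1 k) (ZMod.mul_inv_of_unit _ h.un) hx
  rw [sh1_eq h.un, shc_eq]
  exact ⟨P014P.shp_s k s, P014P.qe k s⟩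

theorem ws1t : WS1 := fun N d p _ ρ G h hp hG => by
  obtain ⟨e, k⟩ := ex_d hp
  refine ⟨isS_tr (u := ρ) (d1 k) h (one_mul _) (P014P.snp_s k hG), fun y hy => ?_⟩
  rw [← B_tr (inv_un h.un), tr_sn h.un, sh1_eq h.un]
  exact P014P.snp_adj k hG (isS_tr h (d1 k) (ZMod.mul_inv_of_unit _ h.un) hy)

theorem wc1 : WC1 := fun N p _ ρ G a h hp hG => by
  obtain ⟨e, k⟩ := ex_d hp
  have c := P014P.snp_co k hG
  have m : M0 (fun n => (a n : ℂ)) = 2 * π * L0 a 1 := by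
    have : M0 (fun n => ((a n * J(n | 1) : ℤ) : ℂ)) = 2 * π * L0 a 1 := rfl
    simpa using this
  have t : sn1 p ρ G 1 ρ⁻¹ = snp (N := N) p G 1 1 := by
    rw [← tr_sn h, tr, mul_one]
  have p0 : (2 * π : ℂ) ≠ 0 := by exact_mod_cast Real.two_pi_pos.ne'
  rw [t]
  refine mul_left_cancel₀ p0 (c.trans ?_)
  rw [m]
  push_cast
  ring

end Vale.Agent.P014Y.Z2
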