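import Vale.Agent.P014Y.Z2.Bas
import Vale.Agent.P004Z.Lf.Wl
import Vale.Agent.P004Z.W2.Smo

/-! # P014Y, block Z2: the coefficient of index one is seen by the fields of the frame -/

set_option autoImplicit false
set_option linter.all false

open scoped NumberTheorySymbols Classical

noncomputable section

namespace Vale.Agent.P014Y.Z2

open P004Z P004Z.Gq
open P004N (RN)
open P014T.Z (Hg)

namespace Vn

variable {N d : ℕ} [NeZero N] {a : ℕ → ℤ} {x : Cf N}

/-- the indicator of the class -/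
def ind (d : ℕ) (S : Finset ℕ) : Cf N := fun n r => if Cl d S n r then 1 else 0

theorem un {q : ℕ} (hq : q.Prime) (h : ¬ q ∣ 2 * N) : IsUnit (q : ZMod (2 * N)) :=
  (ZMod.isUnit_iff_coprime _ _).2 (hq.coprime_iff_not_dvd.2 h)

theorem wt {S : Finset ℕ} (hS : ∀ l ∈ S, l.Prime) {q : ℕ} (hq : q.Prime) (h : ¬ q ∣ 2 * N)
    (k : q ∉ S) : Wt q (8 * ∏ l ∈ S, l ^ 2) (ind (N := N) d S) := by
  have q2 : q.Coprime 2 := hq.coprime_iff_not_dvd.2 fun e => h (e.mul_right N)
  have c (l) (hl : l ∈ S) : q.Coprime l :=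
    (Nat.coprime_primes hq (hS l hl)).2 fun e => k (e ▸ hl)
  have pe {n m : ℕ} {r : ZMod (2 * N)} (e : n ≡ m [MOD 8 * ∏ l ∈ S, l ^ 2]) (z : Cl d S n r) :
      Cl d S m r := by
    refine ⟨z.1, Eq.trans (e.of_mul_right _).symm z.2.1, fun l hl => ?_⟩
    have e' := (e.of_mul_left _).of_dvd (Finset.dvd_prod_of_mem (fun l => l ^ 2) hl)
    obtain ⟨⟨u, rfl⟩, j⟩ := z.2.2 l hl
    have l0 := (hS l hl).pos
    obtain ⟨v, rfl⟩ := ((e'.of_dvd (dvd_pow_self l two_ne_zero)).dvd_iff dvd_rfl).1 (dvd_mul_right _ _)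
    refine ⟨dvd_mul_right _ _, ?_⟩
    rw [pow_two, Nat.ModEq.mul_left_cancel_iff' l0.ne'] at e'
    rw [Nat.mul_div_cancel_left _ l0] at j ⊢
    rw [← j]
    exact jacobiSym.mod_left' (Int.natCast_modEq_iff.2 (e'.symm.mul_right _)).neg
  refine ⟨((Nat.Coprime.pow_right 3 q2).mul_right (Nat.Coprime.prod_right fun l hl =>
    (c l hl).pow_right 2) :), mul_ne_zero (by norm_num) (Finset.prod_ne_zero_iff.2 fun l hl =>
    pow_ne_zero _ (hS l hl).ne_zero), fun n m r e => ?_, fun n r => ?_⟩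
  · exact if_congr ⟨pe e, pe e.symm⟩ rfl rfl
  · refine if_congr (and_congr (by simp [un hq h]) (and_congr ?_
      (forall₂_congr fun l hl => ?_))) rfl rfl
    · obtain ⟨s, hs⟩ : Odd q := Nat.coprime_two_right.1 q2
      obtain ⟨u, hu⟩ := Nat.even_mul_succ_self s
      rw [show q ^ 2 * n = 8 * (u * n) + n by rw [hs]; linear_combination 4 * n * hu,
        Nat.mul_add_mod]
    · rw [← ((c l hl).symm.pow_right 2).dvd_mul_left (n := n)]
      refine and_congr_right fun e => ?_
      obtain ⟨u, rfl⟩ := ((c l hl).symm.pow_right 2).dvd_mul_left.1 e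
      rw [mul_left_comm, Nat.mul_div_cancel_left _ (hS l hl).pos,
        Nat.mul_div_cancel_left _ (hS l hl).pos, show -((q ^ 2 * u * (d / l) : ℕ) : ℤ) =
        q ^ 2 * -((u * (d / l) : ℕ) : ℤ) by push_cast; ring, jacobiSym.mul_left,
        jacobiSym.sq_one' (by rw [Int.gcd_natCast_natCast]; exact c l hl), one_mul]

/-- the recursion -/
theorem rec0 (e : Eig d (2 * N * d) a x) {D : ℕ} (sq : Squarefree D) {ρ : ZMod (2 * N)}
    (z : x D ρ = 0) (m : ℕ) : m ≠ 0 → m.Coprime (2 * N * d) → x (D * m ^ 2) (ρ * m) = 0 := by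
  induction m using Nat.strong_induction_on with
  | _ m ih =>
  intro m0 c
  rcases eq_or_ne m 1 with rfl | m1
  · simpa using z
  obtain ⟨l, hl, m, rfl⟩ := Nat.exists_prime_and_dvd m1
  have m0' := right_ne_zero_of_mul m0
  have lt : m < l * m := lt_mul_of_one_lt_left (Nat.pos_of_ne_zero m0') hl.one_lt
  have nd := hl.coprime_iff_not_dvd.1 c.coprime_mul_right
  have := congrFun (congrFun (e l hl nd) (D * m ^ 2)) (ρ * m)
  simp only [TT, Pi.smul_apply, ih m lt m0' c.coprime_mul_left, mul_zero, add_zero,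
    smul_zero] at this
  rw [show D * (l * m) ^ 2 = l ^ 2 * (D * m ^ 2) by ring,
    show ρ * (l * m : ℕ) = l * (ρ * m) by push_cast; ring, ← this]
  split_ifs with k
  · obtain ⟨m, rfl⟩ : l ∣ m := by
      by_contra n
      exact hl.prime.not_unit (sq l (pow_two l ▸ ((hl.coprime_iff_not_dvd.2 n).pow 2
        2).dvd_of_dvd_mul_right k))
    rw [show D * (l * m) ^ 2 = l ^ 2 * (D * m ^ 2) by ring,
      Nat.mul_div_cancel_left _ (pow_pos hl.pos 2), show (l : ZMod (2 * N))⁻¹ * (ρ * (l * m : ℕ)) =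
        ((l : ZMod (2 * N))⁻¹ * l) * (ρ * m) by push_cast; ring,
      ZMod.inv_mul_of_unit _ (un hl fun e => nd (e.mul_right d)), one_mul,
      ih m (lt.trans_le' (Nat.le_mul_of_pos_left _ hl.pos)) (right_ne_zero_of_mul m0')
        c.coprime_mul_left.coprime_mul_left, mul_zero, add_zero]
  · rw [add_zero]

theorem T3_comb (l : ℕ) (k : ℂ) (x y : Cf N) : T3 l (k • x + y) = k • T3 l x + T3 l y := by
  ext n r
  simp only [T3, Pi.add_apply, Pi.smul_apply, smul_eq_mul]
  split_ifs <;> ring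

theorem T3_smul (l : ℕ) (k : ℂ) (x : Cf N) : T3 l (k • x) = k • T3 l x := by
  ext n r
  simp only [T3, Pi.smul_apply, smul_eq_mul]
  split_ifs <;> ring

end Vn

open Vn

theorem van (vt : VT) (kit : KIT) (ari : ARI) (sh1 : SH1) : VAN := fun N _ G a d β x rn h v z => by
  have ok := Hg.ok h
  have K := kit N d ok (Hg.m4 h)
  have pf {S : Finset ℕ} (hS : S ⊆ d.primeFactors) (l) (hl : l ∈ S) : l.Prime :=
    Nat.prime_of_mem_primeFactors (hS hl)
  have top : ind d d.primeFactors * x = 0 := by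
    obtain ⟨p, -, hp, p1⟩ := Nat.forall_exists_prime_gt_and_modEq 0
      (q := 4 * (64 * N ^ 4 + d + 2 * N).factorial) (a := 1)
      (mul_ne_zero four_ne_zero (Nat.factorial_ne_zero _)) (Nat.coprime_one_left _)
    have dv {u : ℕ} (u0 : 0 < u) (le : u ≤ 64 * N ^ 4 + d + 2 * N) : p ≡ 1 [MOD 4 * u] :=
      p1.of_dvd (Nat.mul_dvd_mul_left 4 (Nat.dvd_factorial u0 le))
    have nd {u : ℕ} (u0 : 0 < u) (le : u ≤ 64 * N ^ 4 + d + 2 * N) : ¬ p ∣ u := fun k =>
      hp.one_lt.ne' (Nat.dvd_one.1 ((((dv u0 le).of_mul_left 4).dvd_iff k).1 dvd_rfl))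
    have n1 := nd (u := 2 * N) (by have := rn.pos; omega) (by omega)
    have n2 := nd ok.one.le (by omega)
    have od : Odd p := hp.odd_of_ne_two fun e => n1 (e ▸ dvd_mul_right 2 N)
    have J1 {u : ℕ} (u0 : 0 < u) (le : u ≤ 64 * N ^ 4 + d + 2 * N) : J(u | p) = 1 := by
      rw [jacobiSym.mod_right' u od, dv u0 le, ← jacobiSym.mod_right' u odd_one,
        jacobiSym.one_right]
    have w := wt (N := N) (d := d) (pf le_rfl) hp n1 fun k => n2 (Nat.dvd_of_mem_primeFactors k)
    have e := (vt N d p _ _ x ok (Hg.m4 h) hp n1 w v.s).1 fun n r j => by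
      by_contra k
      have k1 : Cl d d.primeFactors n r := by_contra fun c => k (by simp [ind, c])
      have k2 : x n r ≠ 0 := right_ne_zero_of_mul k
      obtain ⟨d₁, m, β₁, rfl, rfl, sq, c, t⟩ := ari N d β n r h k1 (v.s.sup _ _ k2)
      have m0 : m ≠ 0 := by rintro rfl; simpa using k1.2.1
      by_cases big : 64 * N ^ 4 < d₁
      · exact k2 (rec0 v.e sq (z _ _ (t big)) m m0 c)
      · push_cast at j
        rw [jacobiSym.mul_left, jacobiSym.mul_left, J1 ok.one.le (by omega),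
          J1 (Nat.pos_of_ne_zero (right_ne_zero_of_mul sq.ne_zero)) (by omega),
          jacobiSym.pow_left] at j
        nlinarith [sq_nonneg J(m | p)]
    rw [(K p hp n1).2.2.2.2 _ _ _ w, ← (K p hp n1).2.1 n2, v.e p hp fun k =>
      ((Nat.Prime.dvd_mul hp).1 k).elim n1 n2, mul_smul_comm, ← sub_eq_zero, ← sub_smul] at e
    refine (smul_eq_zero.1 e).resolve_left fun k => (triv N G a rn p hp fun k => n1 (k.mul_left 2)).1 ?_
    exact_mod_cast sub_eq_zero.1 k
  suffices ∀ S ⊆ d.primeFactors, ∀ x : Cf N, Vv d (2 * N * d) a x → ind d S * x = 0 → x 1 β = 0 from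
    this _ le_rfl x v top
  clear top z v x
  intro S
  induction S using Finset.induction_on with
  | empty =>
    intro _ x _ e
    have c : Cl d ∅ 1 (β : ZMod (2 * N)) := ⟨Hg.un h, rfl, by simp⟩
    simpa [ind, c] using congrFun (congrFun e 1) β
  | insert q S nq ih =>
    intro hS x v e
    have hS' := (Finset.subset_insert q S).trans hS
    have mq := hS (Finset.mem_insert_self q S)
    have hq := Nat.prime_of_mem_primeFactors mq
    have qd := Nat.dvd_of_mem_primeFactors mq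
    have n1 : ¬ q ∣ 2 * N := fun k => hq.one_lt.ne' (Nat.eq_one_of_dvd_coprimes
      (Nat.Coprime.mul_left (Nat.coprime_two_left.2 ok.odd) ok.cop) k qd)
    have w := wt (N := N) (d := d) (pf hS') hq n1 nq
    have tv {y : Cf N} (u : Vv d (2 * N * d) a y) : Vv d (2 * N * d) a (T3 q y) ∧
        T3 q y 1 β = a q * y 1 β := by
      refine ⟨⟨(K q hq n1).2.2.1 _ u.s, fun l hl k => ?_⟩, ?_⟩
      · have k1 : ¬ l ∣ 2 * N := fun e => k (e.mul_right d)
        have k2 : ¬ l ∣ d := fun e => k (e.mul_left _)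
        rw [(K l hl k1).2.1 k2, (K q hq n1).2.2.2.1 l hl k1, ← (K l hl k1).2.1 k2, u.e l hl k,
          T3_smul]
      · have := sh1 N d _ _ G a y (Hg.d1 h) rn (mul_ne_zero (mul_ne_zero two_ne_zero rn.pos.ne')
          h.sq.ne_zero) u q
        rw [shc, Nat.sum_divisorsAntidiagonal (fun i j => (J(j | 1) : ℂ) * y (1 * i ^ 2) (_ * i)),
          hq.sum_divisors, Hg.inv_inv h] at this
        rw [mul_comm (a q : ℂ), ← this, T3, if_neg fun k => hq.one_lt.ne'
          (Nat.dvd_one.1 ((dvd_pow_self q two_ne_zero).trans k))]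
        simp [mul_comm]
    have e2 := (vt N d q _ _ x ok (Hg.m4 h) hq n1 w v.s).2 J(-((d / q : ℕ) : ℤ) | q) (by
      rw [← pow_two]
      refine jacobiSym.sq_one ?_
      rw [Int.neg_gcd, Int.gcd_natCast_natCast]
      obtain ⟨u, rfl⟩ := qd
      rw [Nat.mul_div_cancel_left _ hq.pos]
      exact (Nat.squarefree_mul_iff.1 h.sq).1.symm) fun n r j => by
      by_cases c : Cl d S (q * n) r
      · have c' : Cl d (insert q S) (q * n) r := ⟨c.1, c.2.1, Finset.forall_mem_insert .. |>.2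
          ⟨⟨dvd_mul_right _ _, by
            rw [Nat.mul_div_cancel_left _ hq.pos, Nat.cast_mul, ← mul_neg, jacobiSym.mul_left, j,
              ← pow_two]
            refine jacobiSym.sq_one ?_
            rw [Int.neg_gcd, Int.gcd_natCast_natCast]
            obtain ⟨u, rfl⟩ := qd
            rw [Nat.mul_div_cancel_left _ hq.pos]
            exact (Nat.squarefree_mul_iff.1 h.sq).1.symm⟩, c.2.2⟩⟩
        simpa [ind, c, c'] using congrFun (congrFun e (q * n)) r
      · simp [ind, c]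
    rw [(K q hq n1).2.2.2.2 _ _ _ w, (K q hq n1).2.2.2.2 _ _ _ w] at e2
    have v2 := (tv (tv v).1).1
    have := ih hS' (-(q + 1 : ℂ) ^ 2 • x + T3 q (T3 q x)) ⟨Lf.Wl.isS_comb _ v.s v2.s,
      fun l hl k => by
        have k1 : ¬ l ∣ 2 * N := fun e => k (e.mul_right d)
        have k2 : ¬ l ∣ d := fun e => k (e.mul_left _)
        rw [(K l hl k1).2.1 k2, T3_comb, ← (K l hl k1).2.1 k2, ← (K l hl k1).2.1 k2, v.e l hl k,
          v2.e l hl k, smul_add, smul_comm]⟩ (by
      rw [mul_add, e2, mul_smul_comm, neg_smul, neg_add_cancel])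
    rw [Pi.add_apply, Pi.add_apply, (tv (tv v).1).2, (tv v).2] at this
    have t := triv N G a rn q hq fun k => n1 (k.mul_left 2)
    have t1 : (a q : ℂ) - (q + 1) ≠ 0 := sub_ne_zero.2 (by exact_mod_cast t.1)
    have t2 : (a q : ℂ) - -(q + 1) ≠ 0 := sub_ne_zero.2 (by exact_mod_cast t.2)
    refine (mul_eq_zero.1 ?_).resolve_left (mul_ne_zero t1 t2)
    simp only [Pi.smul_apply, smul_eq_mul] at this
    linear_combination this

end Vale.Agent.P014Y.Z2
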