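import Vale.Agent.P014Y.Z2.Tr

/-! # P014Y, block Z2: the row VAN0 -/

set_option autoImplicit false
set_option linter.all false

open UpperHalfPlane hiding I
open Complex
open scoped Classical

noncomputable section

namespace Vale.Agent.P014Y.Z2

open P004Z P004Z.W Tr
open P004Z.Gq (qc)

theorem van0 : VAN0 := by
  intro N p M _ _ H c e h he hv n r
  have h2 := ne2 h
  have p1 := p_ne (p := p)
  have G := qc_G h2
  have qn : ∀ y : ZMod p, qc p (-y) = qc p (-1) * qc p y := fun y => by rw [← Gq.qc_mul, neg_one_mul]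
  have q0 : ∀ y : ZMod p, qc p y * qc p y = 1 - if y = 0 then 1 else 0 := fun y => by
    split_ifs with k
    · simp [k, Gq.qc_zero]
    · rw [Gq.qc_sq k, sub_zero]
  have tw : ∀ n : ZMod p, ∑ ν, qc p ν * ZMod.stdAddChar (ν * n) = qc p n * P004Z.gs p :=
    fun n => by simpa only [mul_comm n] using Gq.qc_tw h2 n
  have w := w0 h
  let a : ZMod p → ℂ := fun ν => (if ν = 0 then (p : ℂ) else 0) - 1 - e * qc p (-ν) * P004Z.gs p
  have h1 := aa_inj ((e1 h a).cg (c' := 0) fun n r => by
    have : ∀ ν y : ZMod p, a ν * ZMod.stdAddChar (ν * y) = (if ν = 0 then (p : ℂ) else 0) -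
        ZMod.stdAddChar (ν * y) - e * qc p (-1) * P004Z.gs p * (qc p ν * ZMod.stdAddChar (ν * y)) :=
      fun ν y => by
        simp only [a, qn ν]
        split_ifs with k
        · simp [k, Gq.qc_zero]
        · ring
    simp only [this, Finset.sum_sub_distrib, sum_psi, ← Finset.mul_sum, tw, Finset.sum_ite_eq',
      Finset.mem_univ, if_true, Pi.zero_apply]
    have := q0 n
    refine (mul_eq_zero_of_right _ ?_).symm
    split_ifs at this ⊢ <;>
      linear_combination p * hv n (p * r) - p * c n (p * r) * this - e * qc p n * c n (p * r) * G)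
  obtain ⟨S, hS⟩ := exS h
  have h5 := congrArg S h1
  simp only [map_sum, map_smul, hS, map_zero] at h5
  have h6 := e2 h a
  rw [h5] at h6
  have h7 := congrFun (congrFun (h6.uq (c' := 0) fun τ r => by simpa using hasSum_zero) n) r
  have h4 : ∀ ν : ZMod p, a (-((4 * N) ^ 2 * ν)⁻¹) * (qc p (-ν) * P004Z.gs p) =
      (-1 - e * qc p ν * P004Z.gs p) * (qc p (-ν) * P004Z.gs p) := fun ν => by
    by_cases k : ν = 0
    · simp [k, Gq.qc_zero]
    generalize (4 * N : ZMod p) = w' at *
    have k2 : -(w' ^ 2 * ν)⁻¹ ≠ 0 := neg_ne_zero.2 (inv_ne_zero (mul_ne_zero (pow_ne_zero 2 w) k))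
    have : qc p (w' ^ 2 * ν)⁻¹ * qc p ν = 1 := by
      rw [← Gq.qc_mul, ← Gq.qc_sq (inv_ne_zero w), ← Gq.qc_mul]
      congr 1
      field_simp
    congr 1
    simp only [a, if_neg k2, neg_neg]
    linear_combination e * P004Z.gs p * (qc p (w' ^ 2 * ν)⁻¹ * Gq.qc_sq k - qc p ν * this)
  have h8 : ∑ ν : ZMod p, (-1 - e * qc p ν * P004Z.gs p) * (qc p (-ν) * P004Z.gs p) *
      ZMod.stdAddChar (ν * (n : ZMod p)) = -(p * qc p n) - e * p * (p * (1 - qc p n * qc p n) - 1) := by
    have : ∀ ν n : ZMod p, (-1 - e * qc p ν * P004Z.gs p) * (qc p (-ν) * P004Z.gs p) *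
        ZMod.stdAddChar (ν * n) = -(qc p (-1) * P004Z.gs p) * (qc p ν * ZMod.stdAddChar (ν * n)) -
          e * p * (ZMod.stdAddChar (ν * n) - if ν = 0 then 1 else 0) := fun ν n => by
      have := q0 ν
      rw [qn]
      split_ifs at this ⊢ with k
      · simp [k, Gq.qc_zero]
      · linear_combination -e * ZMod.stdAddChar (ν * n) * (p * this + qc p ν * qc p ν * G)
    simp only [this, Finset.sum_sub_distrib, ← Finset.mul_sum, tw, sum_psi, q0,
      Finset.sum_ite_eq', Finset.mem_univ, if_true]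
    split_ifs <;> linear_combination -qc p n * G
  have a0 : a 0 = p - 1 := by simp [a, Gq.qc_zero]
  simp only [h4, h8, a0, Pi.zero_apply] at h7
  have p2 : (p - 1 : ℂ) ≠ 0 := sub_ne_zero.2 (Nat.cast_ne_one.2 (Fact.out : p.Prime).ne_one)
  refine mul_left_cancel₀ (mul_ne_zero p1 p2) ?_
  linear_combination h7 - e * p ^ 2 * hv n r - p ^ 2 * qc p n * c n r * he

end Vale.Agent.P014Y.Z2
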