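import Vale.Agent.P014Y.Z2.St

/-! # P014Y, block Z2: the second vanishing lemma -/

set_option autoImplicit false
set_option linter.all false

open Complex UpperHalfPlane
open scoped Real MatrixGroups

noncomputable section

namespace Vale.Agent.P014Y.Z2

open P004Z P004Z.Ar
open P004Z.W (Mp AA Gm Dp En sl nn ss aa sq2 Im Ix dl)
open P004Z.Gq (qc)

namespace V1

variable {N q M : ℕ} [NeZero N] [Fact q.Prime] {H : Mp → ℍ → AA N → ℂ} {c : ℕ → AA N → ℂ}

theorem sl0 (x : Mp) : sl 3 x (0 : ℍ → AA N → ℂ) = 0 := funext fun τ => by simp [sl]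

/-- lower unipotent elements -/
def lw (u : ℤ) : Mp := ss * nn u * ss⁻¹

theorem lw_mem (u : ℤ) : lw u ∈ Gm :=
  mul_mem (mul_mem W.ss_mem (W.nn_mem u)) (inv_mem W.ss_mem)

theorem im_x (t u : ℤ) :
    Im q ((aa q)⁻¹ * nn t * lw u) (1 - t * u) t (-(q ^ 2 * u)) (q ^ 2) := by
  have := W.p_r (p := q)
  obtain ⟨i1, i2, i3, i4⟩ := W.inv_e ss.g
  constructor <;> simp [lw, i1, i2, i3, i4] <;> field_simp <;> ring

/-- the cosets which are moved -/
def ok : Ix q → Prop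
  | .inl _ => True
  | .inr (.inl ν) => ν ≠ 0
  | .inr (.inr b) => ¬ q ∣ b.val

/-- its indicator -/
def ch : Ix q → ℂ
  | .inl _ => 1
  | .inr (.inl ν) => if ν ≠ 0 then 1 else 0
  | .inr (.inr b) => if ¬ q ∣ b.val then 1 else 0

open Classical in
theorem ch_eq (i : Ix q) : ch i = if ok i then 1 else 0 := by
  rcases i with _ | ν | b
  · exact (if_pos trivial).symm
  · exact if_congr Iff.rfl rfl rfl
  · exact if_congr Iff.rfl rfl rfl

theorem P : Prime (q : ℤ) := Nat.prime_iff_prime_int.1 Fact.out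

theorem cp {a : ℤ} (h : ¬ (q : ℤ) ∣ a) : IsCoprime a ((q ^ 2 : ℕ) : ℤ) := by
  push_cast
  exact (P.coprime_iff_not_dvd.2 h).symm.pow_right

theorem nd4 (h : IsCoprime (q : ℤ) (2 * N)) {a : ℤ} (ha : ¬ (q : ℤ) ∣ a) :
    ¬ (q : ℤ) ∣ 4 * N * a := fun e => ha ((W.cop4 h).symm.dvd_of_dvd_mul_left e)

open Classical in
theorem sumX (h : Hs N q M H c) {t : ℤ} (ht : ¬ (q : ℤ) ∣ t) :
    ∑ s : ZMod (q ^ 2), H ((aa q)⁻¹ * nn t * lw (M * (s.val : ℤ))) =
      ∑ i, ch i • H (dl N q i) := by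
  simp only [ch_eq, ite_smul, one_smul, zero_smul]
  have hm : ¬ (q : ℤ) ∣ M := P.coprime_iff_not_dvd.1 h.hm.symm
  have tm : ¬ (q : ℤ) ∣ t * M := fun e => (P.dvd_or_dvd e).elim ht hm
  choose f hf using fun s : ZMod (q ^ 2) =>
    W.ex_dl h.hq (x := (aa q)⁻¹ * nn t * lw (M * (s.val : ℤ))) ⟨_, _, _, _, im_x _ _⟩
  rw [← Finset.sum_filter]
  refine Finset.sum_bij (fun s _ => f s) (fun s _ => ?_) (fun s _ s' _ e => ?_) (fun i hi => ?_)
    fun s _ => h.eq _ _ (W.dp_dl _) (hf s)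
  · have := hf s
    simp only [Finset.mem_filter, Finset.mem_univ, true_and]
    generalize f s = i at this
    rcases i with _ | ν | b
    · trivial
    · rintro rfl
      have := (((im_x _ _).crit (W.im_n _)).1 this).2.1
      simp only [ZMod.val_zero, Nat.cast_zero, mul_zero, sub_zero] at this
      exact ht (Int.dvd_of_mul_dvd_mul_left P.ne_zero (by rwa [← sq, mul_comm]))
    · rintro ⟨k, hk⟩
      obtain ⟨j, hj⟩ := (((im_x _ _).crit (W.im_b _)).1 this).2.1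
      rw [hk] at hj
      push_cast at hj
      exact ht ⟨q * j + (1 - t * (M * s.val)) * (4 * N * k), by linear_combination hj⟩
  · have := mul_mem (hf s) (inv_mem (hf s'))
    rw [show f s = f s' from e, _root_.mul_inv_rev, inv_inv, mul_assoc, inv_mul_cancel_left] at this
    have k := (((im_x _ _).crit (im_x _ _)).1 this).2.1
    have k2 : ((q ^ 2 : ℕ) : ℤ) ∣ t * (t * M) * (s.val - s'.val) := by
      convert k using 1 <;> [norm_cast; ring]
    simpa using ((ZMod.intCast_eq_intCast_iff_dvd_sub _ _ _).2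
      ((cp fun e => (P.dvd_or_dvd e).elim ht tm).symm.dvd_of_dvd_mul_left k2)).symm
  · have k : ∀ {y : Mp} {A B C D : ℤ}, Im q y A B C D → (¬ (q : ℤ) ∣ B ∨ ¬ (q : ℤ) ∣ D) →
        ∃ s : ZMod (q ^ 2), y * ((aa q)⁻¹ * nn t * lw (M * (s.val : ℤ)))⁻¹ ∈ Gm :=
      fun {y A B C D} hy hu => by
        obtain ⟨s, ⟨j, e⟩, l, e'⟩ := W.solve (q := q ^ 2) (A := B) (B := B - A * t) (C := D)
          (D := D - C * t) (w := t * M) ⟨-t, by push_cast; linear_combination -t * hy.det⟩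
          (hu.imp cp cp) (cp tm)
        push_cast at e e'
        exact ⟨s, (hy.crit (im_x _ _)).2 ⟨⟨A + B * (M * s.val), by ring⟩,
          ⟨j, by linear_combination e⟩, ⟨C + D * (M * s.val), by ring⟩, l, by linear_combination e'⟩⟩
    simp only [Finset.mem_filter, Finset.mem_univ, true_and] at hi
    obtain ⟨s, hs⟩ : ∃ s : ZMod (q ^ 2),
        dl N q i * ((aa q)⁻¹ * nn t * lw (M * (s.val : ℤ)))⁻¹ ∈ Gm := by
      rcases i with _ | ν | b
      · exact k W.im_a (.inr P.not_dvd_one)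
      · exact k (W.im_n _) (.inl (nd4 h.hq fun e => hi (by
          simpa using (ZMod.intCast_zmod_eq_zero_iff_dvd _ _).2 e)))
      · exact k (W.im_b _) (.inl (nd4 h.hq fun e => hi (by exact_mod_cast e)))
    refine ⟨s, Finset.mem_univ _, (W.uq_dl h.hq ?_).symm⟩
    have := mul_mem hs (hf s)
    rwa [mul_assoc, inv_mul_cancel_left] at this

theorem fixX (h : Hs N q M H c) {t : ℤ} (ht : (q : ℤ) ∣ t) (u : ℤ) :
    H ((aa q)⁻¹ * nn t * lw u) = H ((aa q)⁻¹ * nn t) := by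
  obtain ⟨k, rfl⟩ := ht
  exact h.eq _ _ ⟨_, _, _, _, W.im_b _⟩ (((im_x _ _).crit (W.im_b _)).2 ⟨⟨1 - q * k * u, by ring⟩,
    ⟨k ^ 2 * u, by ring⟩, ⟨-(q ^ 2 * u), by ring⟩, 1 + u * (q * k), by ring⟩)

/-- the weights -/
def kp (q : ℕ) [Fact q.Prime] (e : ℂ) (b : ZMod (q ^ 2)) : ℂ := by
  classical
  exact ∑ y : ZMod q, if qc q y = e then
    ZMod.stdAddChar (b * -((q * y.val : ℕ) : ZMod (q ^ 2))) else 0

theorem kp_sum {e a : ℂ} (n : ℕ) (h : ∀ m : ℕ, n = q * m → qc q m = e → a = 0) :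
    (∑ b, kp q e b * ZMod.stdAddChar (b * (n : ZMod (q ^ 2)))) * a = 0 := by
  simp only [kp, Finset.sum_mul, ite_mul, zero_mul, ← AddChar.map_add_eq_mul, ← mul_add]
  rw [Finset.sum_comm]
  refine Finset.sum_eq_zero fun y _ => ?_
  split_ifs with k
  · rw [← Finset.sum_mul, W.sum_psi]
    split_ifs with l
    · have l' := (ZMod.natCast_eq_natCast_iff _ _ _).1 (neg_add_eq_zero.1 l)
      obtain ⟨m, rfl⟩ : q ∣ n := ((l'.of_dvd (dvd_pow_self q two_ne_zero)).dvd_iff dvd_rfl).1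
        (dvd_mul_right _ _)
      rw [sq] at l'
      have := (ZMod.natCast_eq_natCast_iff _ _ _).2 (l'.mul_left_cancel' (NeZero.ne q))
      rw [ZMod.natCast_zmod_val] at this
      rw [h m rfl (this ▸ k), mul_zero]
    · exact zero_mul _
  · simp

theorem psi1 {b : ZMod (q ^ 2)} (hb : q ∣ b.val) (m : ℕ) :
    b * ((q * m : ℕ) : ZMod (q ^ 2)) = 0 := by
  obtain ⟨k, hk⟩ := hb
  rw [← ZMod.natCast_zmod_val b, hk, ← Nat.cast_mul, ZMod.natCast_eq_zero_iff]
  exact ⟨k * m, by ring⟩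

theorem kp_dv {e : ℂ} {b : ZMod (q ^ 2)} (hb : q ∣ b.val) : kp q e b = kp q e 0 := by
  simp only [kp, mul_neg, psi1 hb, zero_mul]

theorem kp_ne (h2 : q ≠ 2) {e : ℂ} (he : e * e = 1) : kp q e 0 ≠ 0 := by
  classical
  simp only [kp, zero_mul, AddChar.map_zero_eq_one, Finset.sum_boole, Nat.cast_ne_zero]
  refine Finset.card_ne_zero.2 ?_
  rcases mul_self_eq_one_iff.1 he with rfl | rfl
  · exact ⟨1, by simp [qc]⟩
  · obtain ⟨y, hy⟩ := quadraticChar_exists_neg_one (F := ZMod q) (by rwa [ZMod.ringChar_zmod_n])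
    exact ⟨y, Finset.mem_filter.2 ⟨Finset.mem_univ _, by rw [qc, hy]; simp⟩⟩

theorem card_dv (a : ℂ) : ∑ b : ZMod (q ^ 2), (if q ∣ b.val then a else 0) = q * a := by
  have q0 := NeZero.pos q
  have hv : ∀ y : ZMod q, ((q * y.val : ℕ) : ZMod (q ^ 2)).val = q * y.val := fun y =>
    ZMod.val_cast_of_lt (by rw [sq]; exact Nat.mul_lt_mul_of_pos_left y.val_lt q0)
  rw [← Finset.sum_filter, Finset.sum_const, nsmul_eq_mul]
  congr 2
  conv_rhs => rw [← ZMod.card q, ← Finset.card_univ]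
  refine (Finset.card_bij (fun y _ => ((q * y.val : ℕ) : ZMod (q ^ 2))) (fun y _ => ?_)
    (fun y _ y' _ e => ?_) fun b hb => ?_).symm
  · simp only [Finset.mem_filter, Finset.mem_univ, true_and, hv, dvd_mul_right]
  · have := congrArg ZMod.val e
    simp only [hv] at this
    exact ZMod.val_injective _ (Nat.eq_of_mul_eq_mul_left q0 this)
  · obtain ⟨k, hk⟩ := (Finset.mem_filter.1 hb).2
    have : k < q := Nat.lt_of_mul_lt_mul_left (a := q) (by rw [← hk, ← sq]; exact b.val_lt)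
    exact ⟨k, Finset.mem_univ _, by
      simp only [ZMod.val_cast_of_lt this, ← hk, ZMod.natCast_zmod_val]⟩

theorem ena {F : ℍ → AA N → ℂ} (h : En F c) : En (sl 3 (aa q) F) fun n r =>
    (√(q : ℝ) : ℝ) * q * if q ^ 2 ∣ n then c (n / q ^ 2) r else 0 := fun τ r => by
  have p0 : 0 < q ^ 2 := pow_pos (NeZero.pos q) 2
  simp only [sl, Pi.smul_apply, smul_eq_mul, W.aa_j]
  refine ((mul_right_injective₀ p0.ne').hasSum_iff fun n hn => ?_).1
    (W.hs_cg ((h _ _).mul_left _) fun n => ?_)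
  · rw [if_neg fun ⟨k, e⟩ => hn ⟨k, e.symm⟩, mul_zero, zero_mul]
  · rw [Function.comp, if_pos (dvd_mul_right _ _), Nat.mul_div_cancel_left _ p0, W.aa_sm,
      show ((q ^ 2 * n : ℕ) : ℂ) * τ = n * (q ^ 2 * τ) by push_cast; ring, _root_.inv_zpow', neg_neg,
      zpow_ofNat, ← W.sp_c]
    ring

theorem enb (h : Hs N q M H c) (b : ZMod (q ^ 2)) :
    En (sl 3 (aa q) (H ((aa q)⁻¹ * nn (4 * N * b.val : ℤ)))) fun n r =>
      (√(q : ℝ) : ℝ) * (ZMod.stdAddChar (b * (n : ZMod (q ^ 2))) * c n (q * r)) :=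
  (h.eb b.val).cg fun n r => by
    rw [← W.ee_std]
    push_cast
    rfl

/-- the relation between the cosets -/
theorem rel (h : Hs N q M H c) {e : ℂ} (he : e * e = 1)
    (hv : ∀ (n : ℕ) r, qc q n = e → c (q * n) r = 0) :
    ∑ b : ZMod (q ^ 2), (if q ∣ b.val then (q : ℂ) else 0) • H ((aa q)⁻¹ * nn (4 * N * b.val : ℤ)) =
      ∑ i, ch i • H (dl N q i) := by
  have h2 : q ≠ 2 := fun e => by
    have := h.hq.of_mul_right_left
    norm_num [e, Int.isCoprime_iff_gcd_eq_one] at this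
  have h1 : ∑ b : ZMod (q ^ 2), kp q e b • H ((aa q)⁻¹ * nn (4 * N * b.val : ℤ)) = 0 := by
    have : sl 3 (aa q) (∑ b : ZMod (q ^ 2), kp q e b • H ((aa q)⁻¹ * nn (4 * N * b.val : ℤ))) = 0 := by
      rw [W.sl_sum]
      refine (En.sum fun b => (enb h b).smul _).ext fun τ r => W.hs_cg hasSum_zero fun n => ?_
      have := kp_sum (q := q) (e := e) (a := c n (q * r)) n fun m hm k => hm ▸ hv m _ k
      simp only [Finset.sum_apply, Pi.smul_apply, smul_eq_mul, mul_left_comm (kp q e _) (_ : ℝ),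
        ← Finset.mul_sum, ← mul_assoc (kp q e _), ← Finset.sum_mul, this, mul_zero, zero_mul]
    rw [← W.sl_one 3 (∑ b : ZMod (q ^ 2), _), ← mul_inv_cancel (aa q), W.sl_mul, this]
    exact sl0 _
  have h3 : ∀ s : ℤ, ∑ b : ZMod (q ^ 2),
      kp q e b • H ((aa q)⁻¹ * nn (4 * N * b.val : ℤ) * lw (M * s)) = 0 := fun s => by
    have := congrArg (sl 3 (lw (M * s))) h1
    rw [W.sl_sum] at this
    refine (Finset.sum_congr rfl fun b _ => ?_).trans (this.trans (sl0 _))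
    exact congrArg _ (h.lo _ s ⟨_, _, _, _, W.im_b _⟩).symm
  have h4 := Finset.sum_eq_zero fun (s : ZMod (q ^ 2)) (_ : s ∈ Finset.univ) => h3 s.val
  rw [Finset.sum_comm] at h4
  obtain ⟨U, hU⟩ : ∃ U, U = ∑ i, ch i • H (dl N q i) := ⟨_, rfl⟩
  have h5 : ∀ b : ZMod (q ^ 2), ∑ s : ZMod (q ^ 2),
      kp q e b • H ((aa q)⁻¹ * nn (4 * N * b.val : ℤ) * lw (M * (s.val : ℤ))) =
      (kp q e 0 * q) • (if q ∣ b.val then (q : ℂ) else 0) • H ((aa q)⁻¹ * nn (4 * N * b.val : ℤ)) +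
        (kp q e b - if q ∣ b.val then kp q e 0 else 0) • U := fun b => by
    rw [← Finset.smul_sum]
    split_ifs with k
    · simp only [fixX h (Dvd.dvd.mul_left (Int.natCast_dvd_natCast.2 k) _)]
      rw [kp_dv k, sub_self, zero_smul, add_zero, Finset.sum_const, Finset.card_univ, ZMod.card,
        ← Nat.cast_smul_eq_nsmul ℂ, smul_smul, smul_smul]
      congr 1
      push_cast
      ring
    · rw [sumX h (nd4 h.hq fun e => k (Int.natCast_dvd_natCast.1 e)), ← hU, zero_smul, smul_zero,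
        zero_add, sub_zero]
  have h6 : ∑ b, kp q e b = 0 := by
    have := kp_sum (q := q) (e := e) (a := 1) 0 fun m hm k => by
      obtain rfl := (mul_eq_zero.1 hm.symm).resolve_left (NeZero.ne q)
      rw [← k, Nat.cast_zero, Gq.qc_zero, zero_mul] at he
      exact he.symm
    simpa using this
  simp only [h5, Finset.sum_add_distrib, ← Finset.smul_sum, ← Finset.sum_smul,
    Finset.sum_sub_distrib, h6, card_dv] at h4
  rw [zero_sub, _root_.neg_smul, mul_comm, ← sub_eq_add_neg, ← smul_sub, smul_eq_zero] at h4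
  rw [← hU]
  exact sub_eq_zero.1 (h4.resolve_left (mul_ne_zero W.p_ne (kp_ne h2 he)))

theorem gau (h2 : q ≠ 2) (k : ZMod q) (x y : ℂ) :
    ∑ ν : ZMod q, (if ν ≠ 0 then (1 : ℂ) else 0) *
      (y * (sq2 q (-ν) * (ZMod.stdAddChar (ν * k) * x))) = y * (q * qc q k * x) := by
  have : ∀ ν : ZMod q, (if ν ≠ 0 then (1 : ℂ) else 0) *
      (y * (sq2 q (-ν) * (ZMod.stdAddChar (ν * k) * x))) =
      y * qc q (-1) * P004Z.gs q * x * (qc q ν * ZMod.stdAddChar (k * ν)) := fun ν => by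
    split_ifs with l
    · rw [W.sq2_eq h2 (neg_ne_zero.2 l), ← neg_one_mul ν, Gq.qc_mul, mul_comm k]
      ring
    · rw [not_not.1 l, Gq.qc_zero]
      ring
  simp only [this, ← Finset.mul_sum, Gq.qc_tw h2]
  linear_combination y * x * qc q k * W.qc_G h2

end V1

open V1 in
theorem van1 : VAN1 := fun N q M _ _ H c e h he hv => by
  have h2 : q ≠ 2 := fun e => by
    have := h.hq.of_mul_right_left
    norm_num [e, Int.isCoprime_iff_gcd_eq_one] at this
  have p1 := W.p_ne (p := q)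
  have s0 := ofReal_ne_zero.2 (W.sp_ne q)
  have h1 := congrArg (sl 3 (aa q)) (rel h he hv)
  rw [W.sl_sum, W.sl_sum] at h1
  simp only [Fintype.sum_sum_type, Fintype.sum_unique, dl, ch] at h1
  have h6 := En.sum fun b : ZMod (q ^ 2) => (enb h b).smul (if q ∣ b.val then (q : ℂ) else 0)
  rw [h1] at h6
  have h7 := h6.uq (((ena (q := q) h.ea).smul _).add
    ((En.sum fun ν => (ena (q := q) (h.en ν)).smul _).add (En.sum fun b => (enb h b).smul _)))
  have t1 : ∀ (m : ℕ) (a : ℂ) (b : ZMod (q ^ 2)), (if q ∣ b.val then (q : ℂ) else 0) *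
      ((√(q : ℝ) : ℝ) * (ZMod.stdAddChar (b * ((q * m : ℕ) : ZMod (q ^ 2))) * a)) =
      if q ∣ b.val then q * ((√(q : ℝ) : ℝ) * a) else 0 := fun m a b => by
    split_ifs with k
    · rw [psi1 k, AddChar.map_zero_eq_one, one_mul]
    · exact zero_mul _
  have t3 : ∀ (m : ℕ) (a : ℂ) (b : ZMod (q ^ 2)), (if ¬ q ∣ b.val then (1 : ℂ) else 0) *
      ((√(q : ℝ) : ℝ) * (ZMod.stdAddChar (b * ((q * m : ℕ) : ZMod (q ^ 2))) * a)) =
      (√(q : ℝ) : ℝ) * a * ZMod.stdAddChar (b * ((q * m : ℕ) : ZMod (q ^ 2))) -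
        if q ∣ b.val then (√(q : ℝ) : ℝ) * a else 0 := fun m a b => by
    by_cases k : q ∣ b.val
    · rw [psi1 k, AddChar.map_zero_eq_one, if_pos k, if_neg (not_not.2 k)]
      ring
    · rw [if_pos k, if_neg k]
      ring
  have h8 := fun m r => congrFun (congrFun h7 (q * m)) r
  simp only [Pi.add_apply, Finset.sum_apply, Pi.smul_apply, smul_eq_mul, t1, t3, card_dv,
    Finset.sum_sub_distrib, ← Finset.mul_sum, W.sum_psi, ZMod.natCast_eq_zero_iff] at h8
  have un : IsUnit (q : AA N) := (ZMod.isUnit_iff_coprime _ _).2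
    (Nat.isCoprime_iff_coprime.1 (by exact_mod_cast h.hq))
  refine ⟨fun n r hn => ?_, fun n r => ?_⟩
  · have := h8 n ((q : AA N)⁻¹ * r)
    have k : ¬ q ^ 2 ∣ q * n := fun e =>
      hn (Nat.dvd_of_mul_dvd_mul_left (NeZero.pos q) (by rwa [← sq]))
    simp only [if_neg k, mul_zero, Finset.sum_const_zero, ← mul_assoc (q : AA N),
      ZMod.mul_inv_of_unit _ un, one_mul] at this
    refine mul_left_cancel₀ (mul_ne_zero (mul_ne_zero p1 s0)
      (show (q + 1 : ℂ) ≠ 0 by exact_mod_cast Nat.succ_ne_zero q)) ?_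
    linear_combination this
  · have := h8 (q * n) r
    rw [← mul_assoc q, ← sq] at this
    simp only [if_pos (dvd_mul_right (q ^ 2) n),
      Nat.mul_div_cancel_left _ (pow_pos (NeZero.pos q) 2), gau h2] at this
    refine mul_left_cancel₀ (mul_ne_zero p1 s0) ?_
    push_cast at this
    linear_combination this

end Vale.Agent.P014Y.Z2
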