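import Vale.Agent.P014Y.Z2.St
import Vale.Agent.P014T.Z.Lift

/-! # P014Y, block Z2: the row `WS1` (helper87) -/

set_option autoImplicit false
set_option linter.all false

open UpperHalfPlane hiding I
open Complex MeasureTheory Filter Set CongruenceSubgroup
open scoped MatrixGroups Modular Real ComplexConjugate Topology ModularForm NumberTheorySymbols

noncomputable section

namespace Vale.Agent.P014Y.Z2

open P004Z P004Z.Lf P004Z.Lf.Wx
open P004N (S2)
open P014T.Z.Lf (Tp)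

namespace Ws

variable {N : ℕ} [NeZero N] {δ δ₁ k : ℕ} {ρ : ZMod (2 * N)} {φ : ZMod (2 * N) → Fm → ℤ}
  {G : ℍ → ℂ}

/-- the Shintani lift against abstract test functions -/
def sg (k : ℕ) (φ : ZMod (2 * N) → Fm → ℤ) (ρ : ZMod (2 * N)) (G : ℍ → ℂ) : Cf N := fun n r =>
  sc N (N * k) (fun l => φ (ρ * r) l) G (k * n) 1

/-- the Shimura lift against abstract test functions -/
def sj (k : ℕ) (φ : ZMod (2 * N) → Fm → ℤ) (ρ : ZMod (2 * N)) (x : Cf N) (z : ℍ) : ℂ :=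
  ∫ τ in FD, (∑ r, fn x r τ * th1 (N * k) (fun l => φ (ρ * r) l) τ z) / τ.im ^ 2

theorem wa' (t : Tp δ₁ k φ) (hG : S2 N G) (r : ZMod (2 * N)) (D : ℤ) {v : ℝ} (h : 0 < v) :
    sc N (N * k) (fun l => φ r l) G D v = sc N (N * k) (fun l => φ r l) G D 1 ∧
      (D ≤ 0 → sc N (N * k) (fun l => φ r l) G D v = 0) :=
  Lf.wa N _ _ G (NeZero.pos N) (mul_pos (NeZero.pos N) t.pos) (t.per r) (by simp [t.zero])
    (fun γ hγ l => by rw [t.inv _ l γ hγ]) hG D v h

theorem sg_sum (t : Tp δ₁ k φ) (hG : S2 N G) (r : ZMod (2 * N)) {τ : ℂ}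
    (h : 0 < τ.im) : HasSum (fun n : ℕ => sg k φ ρ G n r * ee (n * τ / (4 * N)))
      (√τ.im * conj (iX N (pp (N * k) (fun l => φ (ρ * r) l) G τ))) := by
  have d0 := t.pos
  have hν : 0 < N * k := mul_pos (NeZero.pos N) d0
  obtain ⟨B, -, hB⟩ := t.bd
  have A := fun D => wa' t hG (ρ * r) D h
  have := (Function.Injective.hasSum_iff (g := fun n : ℕ => (k : ℤ) * n) (fun a b e => by
    simpa [d0.ne'] using e) fun D hD => ?_).2
    (expa hν (hB (ρ * r)) (fun l => by simp) h (NeZero.pos N) hG)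
  · convert this using 2 with n
    simp only [Function.comp, sg, (A _).1]
    congr 2
    have : (k : ℂ) ≠ 0 := Nat.cast_ne_zero.2 d0.ne'
    push_cast
    field_simp
  · rcases le_or_gt D 0 with q | q
    · rw [(A D).2 q, zero_mul]
    · refine mul_eq_zero_of_left ?_ _
      have : ∀ l : {l : Fm // disc l = D}, φ (ρ * r) l = 0 := fun l => by
        by_contra e
        obtain ⟨m, hm, -⟩ := t.sup _ _ e
        rw [l.2] at hm
        have : 0 ≤ m := by
          by_contra q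
          have : (k : ℤ) * m ≤ 0 := mul_nonpos_of_nonneg_of_nonpos (by positivity) (by omega)
          omega
        exact hD ⟨m.toNat, by simp [hm, Int.toNat_of_nonneg this]⟩
      simp [sc, iX, this]

theorem law (t : Tp δ₁ k φ) (hu : IsUnit ρ) (G : ℍ → ℂ) (r : ZMod (2 * N)) {τ : ℂ}
    (h : 0 < τ.im) (w : ℍ) : pp (N * k) (fun l => φ (ρ * r) l) G (-1 / τ) w =
      -(τ * hw τ)⁻¹ * ‖τ‖ ^ 4 * ∑ s, sm N δ₁ (ρ * r) (ρ * s) *
        pp (N * k) (fun l => φ (ρ * s) l) G τ w := by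
  have hν : 0 < N * k := mul_pos (NeZero.pos N) t.pos
  obtain ⟨B, -, hB⟩ := t.bd
  obtain ⟨u, rfl⟩ := hu
  have a := (ths _ _ hν (t.per (u * r)) τ w h w.im_pos).2
  have b : ∑' l, tt (N * k) (ft (N * k) fun l => φ (u * r) l) τ w l =
      ∑ s, sm N δ₁ (u * r) (u * s) * ∑' l, tt (N * k) (fun l => φ (u * s) l) τ w l := by
    simp only [← tsum_mul_left]
    rw [← Summable.tsum_finsetSum fun s _ => ((tt_sum hν (hB (u * s)) h w).of_norm.mul_left _)]
    refine tsum_congr fun l => ?_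
    simp only [tt, t.ft, ← mul_assoc, ← Finset.sum_mul]
    congr 2
    exact (Equiv.sum_comp u.mulLeft fun s => sm N δ₁ (u * r) s * φ s l).symm
  have n := Du.ne0 h
  have v : (τ.im : ℂ) ≠ 0 := ofReal_ne_zero.2 h.ne'
  have n' : (‖τ‖ : ℂ) ≠ 0 := by simpa using n
  have i : ((-1 / τ).im : ℂ) = τ.im / ‖τ‖ ^ 2 := by
    rw [div_im, normSq_eq_norm_sq]
    simp [neg_div]
  have th : ∀ (φ : Fm → ℂ) (τ : ℂ), th1 (N * k) φ τ w = τ.im ^ 2 * ∑' l, tt (N * k) φ τ w l :=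
    fun _ _ => rfl
  rw [th, th, b, i] at a
  simp only [pp, ← mul_assoc _ _ (conj (G w) * _), ← Finset.sum_mul]
  congr 1
  generalize ∑' l, tt (N * k) (fun l => φ (u * r) l) (-1 / τ) w l = X at a ⊢
  generalize ∑ s, sm N δ₁ (u * r) (u * s) *
    ∑' l, tt (N * k) (fun l => φ (u * s) l) τ w l = Y at a ⊢
  have := Du.hw_ne h
  field_simp at a ⊢
  exact a

theorem sup (t : Tp δ₁ k φ) (du : Dual δ δ₁ ρ) {n : ℕ} {r : ZMod (2 * N)}
    (e : sg k φ ρ G n r ≠ 0) : In N δ n r := by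
  obtain ⟨l, hl⟩ : ∃ l : {l : Fm // disc l = k * n}, φ (ρ * r) l ≠ 0 := by
    by_contra q
    push Not at q
    exact e (by simp [sg, sc, iX, q])
  obtain ⟨m, hm, e2⟩ := t.sup _ _ hl
  obtain rfl : (n : ℤ) = m := mul_left_cancel₀ (Nat.cast_ne_zero.2 t.pos.ne') (l.2.symm.trans hm)
  have co : ρ.val.Coprime (2 * N) := by
    rw [← ZMod.isUnit_iff_coprime, ZMod.natCast_zmod_val]
    exact du.un
  have c4 : IsCoprime (4 * N : ℤ) ((ρ.val : ℤ) ^ 2) := by
    have h2 : ρ.val.Coprime (2 * (2 * N)) := co.coprime_mul_right_right.mul_right co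
    have := Nat.isCoprime_iff_coprime.2 (h2.pow_left 2).symm
    push_cast at this
    rwa [← mul_assoc, show (2 * 2 : ℤ) = 4 by norm_num] at this
  rw [show ρ * r = ((ρ.val * r.val : ℤ) : ZMod (2 * N)) by simp, Du.in_int] at e2
  refine c4.dvd_of_dvd_mul_left ((e2.add (du.sq.mul_right n)).trans (dvd_of_eq ?_))
  ring

theorem isS (t : Tp δ₁ k φ) (du : Dual δ δ₁ ρ) (hG : S2 N G) : IsS δ (sg k φ ρ G) := by
  have hN := NeZero.pos N
  have hν : 0 < N * k := mul_pos hN t.pos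
  have := Subgroup.fintypeQuotientOfFiniteIndex (H := Gamma0 N)
  obtain ⟨B, -, hB⟩ := t.bd
  have S := fun r τ h => sg_sum (ρ := ρ) t hG r (τ := τ) h
  have S' : ∀ r (τ : ℂ), 0 < τ.im → fn (sg k φ ρ G) r τ = _ := fun r τ h => (S r τ h).tsum_eq
  refine ⟨fun r => (wa' t hG (ρ * r) _ one_pos).2 (by simp), fun n r e => sup t du e,
    fun r τ h => (S r τ h).summable.norm, fun τ h r => ?_⟩
  rw [S' r _ (Du.im_S h)]
  simp only [S' _ _ h, iX, finsum_eq_sum_of_fintype, law t du.un G r h, integral_const_mul]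
  simp only [fun q : SL(2, ℤ) ⧸ Gamma0 N => integral_finsetSum Finset.univ fun s _ =>
    (pp_int hν (hB (ρ * s)) h hN hG q.out⁻¹).const_mul (sm N δ₁ (ρ * r) (ρ * s)),
    integral_const_mul, ← Finset.mul_sum]
  rw [Finset.sum_comm]
  simp only [← Finset.mul_sum, map_mul, map_sum (starRingEnd ℂ) _ (Finset.univ (α := ZMod _)),
    ← sm_dual phi du]
  have i : √(-1 / τ).im = √τ.im / ‖τ‖ := by
    rw [div_im, normSq_eq_norm_sq]
    simp [neg_div, Real.sqrt_div h.le]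
  have n := Du.ne0 h
  have n' : (‖τ‖ : ℂ) ≠ 0 := by simpa using n
  have a := Du.hw_ne h
  have a' : conj (hw τ) ≠ 0 := by simpa using a
  have n'' : conj τ ≠ 0 := by simpa using n
  have b := Du.hw_conj (τ := τ)
  have c := Du.hw_sq (τ := τ)
  have d : τ * conj τ = ‖τ‖ ^ 2 := by rw [mul_conj, normSq_eq_norm_sq]; push_cast; rfl
  rw [i, Finset.mul_sum, Finset.mul_sum, Finset.mul_sum]
  refine Finset.sum_congr rfl fun s _ => ?_
  simp only [map_neg, map_inv₀, map_mul, map_pow, conj_ofReal, ofReal_div]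
  have j : -((‖τ‖ : ℂ) ^ 4 / ‖τ‖ / (conj τ * conj (hw τ))) = τ ^ 2 / hw τ * I := by
    rw [pow_succ, mul_div_cancel_right₀ _ n', pow_succ, ← d, ← b]
    field_simp
    rw [c]
    field_simp
    simp
  linear_combination (exp := 1) (√τ.im * conj (sm N δ₁ (ρ * r) (ρ * s)) * conj (∑ q :
    SL(2, ℤ) ⧸ Gamma0 N, ∫ z in 𝒟, pp (N * k) (fun l => φ (ρ * s) l) G τ
      (q.out⁻¹ • z))) * j

theorem adj (t : Tp δ₁ k φ) (hG : S2 N G) {y : Cf N} (hy : IsS δ y) :
    pet (fn y) (fn (sg k φ ρ G)) = pet2 N (sj k φ ρ y) G := by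
  have hN := NeZero.pos N
  have hν : 0 < N * k := mul_pos hN t.pos
  have := Subgroup.fintypeQuotientOfFiniteIndex (H := Gamma0 N)
  obtain ⟨B, -, hB⟩ := t.bd
  have S' : ∀ r (τ : ℂ), 0 < τ.im → fn (sg k φ ρ G) r τ = _ := fun r τ h =>
    (sg_sum (ρ := ρ) t hG r h).tsum_eq
  obtain ⟨A, A0, fb⟩ := Du.Pe.fn_le hy
  have mF := Sk.closed_FD.measurableSet
  have fi : ∀ r, IntegrableOn (fn y r) FD := fun r =>
    Du.Pe.int_FD (Du.Pe.c_pos (N := N)) (Du.Pe.fn_dec hy r).diff.continuousOn (fb r)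
  have J : ∀ r (g : SL(2, ℤ)), Integrable (fun p : ℂ × ℍ => fn y r p.1 *
      pp (N * k) (fun l => φ (ρ * r) l) G p.1 (g • p.2))
      ((volume.restrict FD).prod (volume.restrict 𝒟)) := by
    intro r g
    obtain ⟨C, e⟩ := pp_le' hν (hB (ρ * r)) one_half_pos hN hG g
    refine ((fi r).comp_fst _).mul_bdd (c := C) ((meas_pp _ _ hG.holo.continuous).comp
      (measurable_fst.prodMk ((meas_sl g).comp measurable_snd))).aestronglyMeasurable ?_
    rw [Measure.prod_restrict]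
    exact ae_restrict_of_forall_mem (mF.prod meas_fd) fun p hp => e _ (Du.Pe.FD_im hp.1) _ hp.2
  have e1 : pet (fn y) (fn (sg k φ ρ G)) = ∫ τ in FD, ∑ q : SL(2, ℤ) ⧸ Gamma0 N, ∑ r,
      ∫ z in 𝒟, fn y r τ * pp (N * k) (fun l => φ (ρ * r) l) G τ (q.out⁻¹ • z) := by
    refine setIntegral_congr_fun mF fun τ h => ?_
    have h := h.2.2
    have s : (√τ.im : ℂ) * (τ.im ^ (-(1 / 2) : ℝ) : ℝ) = 1 := by
      rw [← ofReal_mul, Real.sqrt_eq_rpow, ← Real.rpow_add h]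
      simp
    simp only [S' _ _ h, map_mul, conj_conj, conj_ofReal, iX, finsum_eq_sum_of_fintype,
      integral_const_mul]
    rw [Finset.sum_comm, Finset.sum_mul]
    refine Finset.sum_congr rfl fun r _ => ?_
    rw [← Finset.mul_sum]
    linear_combination (fn y r τ * ∑ q : SL(2, ℤ) ⧸ Gamma0 N, ∫ z in 𝒟,
      pp (N * k) (fun l => φ (ρ * r) l) G τ (q.out⁻¹ • z)) * s
  rw [e1, integral_finsetSum _ fun q _ => integrable_finsetSum _ fun r _ =>
    (J r _).integral_prod_left, pet2, finsum_eq_sum_of_fintype]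
  refine Finset.sum_congr rfl fun q _ => ?_
  generalize q.out⁻¹ = g
  rw [integral_finsetSum _ fun r _ => (J r g).integral_prod_left,
    int_FD fun z => petersson 2 G (sj k φ ρ y) (g • ofComplex z),
    Finset.sum_congr rfl fun r _ => integral_integral_swap (J r g),
    ← integral_finsetSum _ fun r _ => (J r g).integral_prod_right]
  refine integral_congr_ae ?_
  filter_upwards [ae_all_iff.2 fun r => (J r g).prod_left_ae] with z hz
  rw [← integral_finsetSum _ fun r _ => hz r, ofComplex_apply, petersson, sj, mul_right_comm,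
    ← integral_const_mul]
  refine setIntegral_congr_fun mF fun τ h => ?_
  have v : (τ.im : ℂ) ≠ 0 := ofReal_ne_zero.2 h.2.2.ne'
  simp only [pp, tt, th1, Finset.sum_div, Finset.mul_sum, zpow_ofNat]
  refine Finset.sum_congr rfl fun r _ => ?_
  field_simp

variable {d e : ℕ}

theorem m4 (h : D1 N d ρ) : d % 4 = 3 := by
  obtain ⟨k, hk⟩ := (dvd_mul_right (4 : ℤ) N).trans h.sq
  rcases Int.even_or_odd' (ρ.val : ℤ) with ⟨j, e | e⟩ <;> rw [e] at hk
  · have : (1 : ℤ) = 4 * (k - j ^ 2 * d) := by linear_combination hk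
    omega
  · have : (d : ℤ) + 1 = 4 * (k - (j ^ 2 + j) * d) := by linear_combination hk
    omega

/-- the modules of `d` and of an auxiliary prime are dual -/
theorem dual (h : D1 N d ρ) (k : P014T.Gx.Ax N e) : Dual d e ρ := by
  refine ⟨h.ok, k.ok, h.un, ?_, ?_⟩
  · have q : (4 * N : ℤ) ∣ e - 1 := by exact_mod_cast Nat.modEq_iff_dvd.1 k.md.symm
    refine (h.sq.add q).trans (dvd_of_eq ?_)
    ring
  · have e2 : ((√(2 * N : ℝ) : ℝ) : ℂ) ^ 2 = 2 * N := by
      rw [← ofReal_pow, Real.sq_sqrt (by positivity)]; push_cast; rfl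
    have e3 : (2 * N : ℂ) ≠ 0 := mul_ne_zero two_ne_zero (Nat.cast_ne_zero.2 (NeZero.ne N))
    rw [Gq.kap_eq k.odd k.pr.squarefree, Gq.kap_eq h.ok.odd h.ok.sq, mul_assoc, div_mul_div_comm,
      ← pow_two, e2, mul_div_cancel₀ _ e3, k.J, h.J]
    simp [Gq.e4, k.m4, m4 h]

end Ws

/-- **WS1** -/
theorem ws1 : WS1 := fun N d p _ ρ G h hp hG => by
  obtain ⟨e, k⟩ := P014T.Gx.ax0 N
  have t := P014T.Z.Lf.tp1 hp k
  have q : sn1 p ρ G = Ws.sg (p ^ 2) (P014T.Z.ps N p 1) ρ G := by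
    funext n r
    rw [sn1, Ws.sg, Nat.cast_pow]
  rw [q]
  exact ⟨Ws.isS t (Ws.dual h k) hG, fun y hy => Ws.adj t hG hy⟩

end Vale.Agent.P014Y.Z2
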