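import Vale.Agent.P014Y.Z2.Glue
import Vale.Agent.P014Y.Z2.Pts
import Vale.Agent.P014Y.Z2.Ari
import Vale.Agent.P014Y.Z2.Van
import Vale.Agent.P014Y.Z2.Van0
import Vale.Agent.P014Y.Z2.Van1
import Vale.Agent.P014Y.Z2.Hs
import Vale.Agent.P014Y.Z2.Kit
import Vale.Agent.P014Y.Z2.Ws1
import Vale.Agent.P014Y.Z2.Tra
import Vale.Agent.P014Y.Z2.Rep
import Vale.Agent.P014T.Zd.Ker
import Vale.Agent.P014T.Z.All

/-! # P014Y, block Z2: the closed term -/

namespace Vale.Agent.P014Y.Z2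

/-- **the formula of Gross and Zagier, the Heegner point in the minus part** -/
theorem gz0_all : GZ0 :=
  gz0 P014T.Z.degv (P014T.Zd.maind P014T.Zd.kerd)
    (van (vt hs van0 van1) kit ari (sh1_of shi1)) (rep shi1 ws1 wc1) pts

end Vale.Agent.P014Y.Z2
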