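import Vale.Agent.P014Y.Z2.St
import Vale.Agent.P014T.Gx.One

/-! # P014Y, block Z2: the standing data -/

set_option autoImplicit false
set_option linter.all false

open Complex
open scoped NumberTheorySymbols

noncomputable section

namespace Vale.Agent.P014Y.Z2

open P004Z P004Z.Gq P004Z.Hd
open P014T.Z (Hg Pz1)
open P014T.Gx (Ax Du1)

variable {N d e : ℕ} {β : ℤ}

namespace Hg

variable (h : Hg N d β)
include h

theorem m4 : d % 4 = 3 := by have := h.m8; omega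

theorem odd : Odd d := Nat.odd_iff.2 (by have := h.m8; omega)

theorem r4 : (4 * N : ℤ) ∣ β ^ 2 + d := (show (4 * N : ℤ) ∣ 16 * N from ⟨4, by ring⟩).trans h.rt

variable [NeZero N]

theorem J : J(N | d) = 1 := J_all N (NeZero.ne N) fun p hp k => by
  rcases eq_or_ne p 2 with rfl | h2
  · rw [Nat.cast_ofNat, jacobiSym.at_two (odd h), ZMod.χ₈_nat_eq_if_mod_eight]
    have := h.m8
    rw [if_neg (by omega), if_pos (by omega)]
  · rw [← J_flip (m4 h) (hp.odd_of_ne_two h2), h.spl p hp h2 k]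

theorem ok : Ok N d := ⟨odd h, h.sq, by have := h.m8; omega, cop_J h.sq.ne_zero (J h)⟩

theorem du1 : Du1 N d (β : ZMod (2 * N)) := ⟨ok h, by
  obtain ⟨u, hu⟩ := r4 h
  obtain ⟨s, hs⟩ := sq_dvd (N := N) (by exact_mod_cast dvd_val (n := 2 * N) β)
  exact ⟨s + u, by linear_combination hs + hu⟩, J h⟩

theorem un : IsUnit (β : ZMod (2 * N)) := (du1 h).un

theorem inv_inv : ((β : ZMod (2 * N))⁻¹)⁻¹ = β := by
  obtain ⟨b, hb⟩ := un h
  rw [← hb, ZMod.inv_coe_unit, ZMod.inv_coe_unit, _root_.inv_inv]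

theorem d1 : D1 N d (β : ZMod (2 * N))⁻¹ := by
  refine ⟨ok h, IsUnit.of_mul_eq_one _ (ZMod.inv_mul_of_unit _ (un h)), ?_, J h⟩
  generalize hσ : ((β : ZMod (2 * N))⁻¹).val = σ
  have e : (2 * N : ℤ) ∣ σ * β - 1 := by
    have : ((σ * β : ℤ) : ZMod (2 * N)) = (1 : ℤ) := by
      push_cast; rw [← hσ, ZMod.natCast_zmod_val, ZMod.inv_mul_of_unit _ (un h)]
    simpa using (ZMod.intCast_eq_intCast_iff_dvd_sub _ _ _).1 this.symm
  refine (((r4 h).mul_left (σ ^ 2)).sub (sq_dvd e)).trans (dvd_of_eq ?_)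
  ring

end Hg

variable [NeZero N] {ρ : ZMod (2 * N)}

theorem Pz1.ax {p : ℕ} (h : Pz1 N p) : Ax N p :=
  ⟨h.pr, (Nat.modEq_iff_dvd.2 (by exact_mod_cast h.one)).symm⟩

/-- smoothing primes exist -/
theorem ex_pz (N : ℕ) [NeZero N] {S : ℕ} (hS : S ≠ 0) : ∃ p, Pz1 N p ∧ ¬ p ∣ S := by
  obtain ⟨p, h, -, k⟩ := P014T.Gx.ex_ax N one_ne_zero S
  exact ⟨p, ⟨h.pr, by exact_mod_cast Nat.modEq_iff_dvd.1 h.md.symm⟩,
    fun q => (Nat.le_of_dvd (Nat.pos_of_ne_zero hS) q).not_gt k⟩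

namespace D1

variable (h : D1 N d ρ)
include h

theorem m4 : d % 4 = 3 := by
  obtain ⟨k, hk⟩ := (dvd_mul_right (4 : ℤ) N).trans h.sq
  rcases Int.even_or_odd' (ρ.val : ℤ) with ⟨j, e | e⟩ <;> rw [e] at hk
  · have : (1 : ℤ) = 4 * (k - j ^ 2 * d) := by linear_combination hk
    omega
  · have : (d : ℤ) + 1 = 4 * (k - (j ^ 2 + j) * d) := by linear_combination hk
    omega

theorem eps : eps d = -1 := by
  rw [P004Z.eps, J_neg_one h.ok.odd, if_neg (by have := h.m4; omega)]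

theorem gs : gs d = Complex.I * (√(d : ℝ) : ℝ) := by
  rw [gs_val h.ok.odd h.ok.sq, e4, if_neg (by have := h.m4; omega)]

theorem dual (k : Ax N e) : Dual d e ρ := by
  refine ⟨h.ok, k.ok, h.un, ?_, ?_⟩
  · have q : (4 * N : ℤ) ∣ e - 1 := by exact_mod_cast Nat.modEq_iff_dvd.1 k.md.symm
    refine (h.sq.add q).trans (dvd_of_eq ?_)
    ring
  · have e2 : ((√(2 * N : ℝ) : ℝ) : ℂ) ^ 2 = 2 * N := by
      rw [← ofReal_pow, Real.sq_sqrt (by positivity)]; push_cast; rfl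
    have e3 : (2 * N : ℂ) ≠ 0 := mul_ne_zero two_ne_zero (Nat.cast_ne_zero.2 (NeZero.ne N))
    rw [kap_eq k.odd k.pr.squarefree, kap_eq h.ok.odd h.ok.sq, mul_assoc, div_mul_div_comm,
      ← pow_two, e2, mul_div_cancel₀ _ e3, k.J, h.J]
    simp [e4, k.m4, h.m4]

/-- the duality of the matrices of `S` -/
theorem sm_dual (r s : ZMod (2 * N)) :
    Complex.I * sm N d r s = -sm N 1 (ρ * s) (-(ρ * r)) := by
  obtain ⟨e, k⟩ := P014T.Gx.ax0 N
  rw [Lf.Sb.sm_dual phi (h.dual k), k.eps, k.sm, P014T.Gx.eps_one, Int.cast_one, one_mul]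

end D1

end Vale.Agent.P014Y.Z2
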