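import Vale.Agent.P014Y.Z2.Bas
import Vale.Agent.P014T.Zd.Glue
import Vale.Agent.P014T.Zd.Aro

/-! # P014Y, block Z2: the glue -/

set_option autoImplicit false
set_option linter.all false

open Complex UpperHalfPlane CongruenceSubgroup
open scoped Real MatrixGroups ComplexConjugate NumberTheorySymbols Classical

noncomputable section

namespace Vale.Agent.P014Y.Z2

open P004Z P004Z.Ar P014T.Gx P014T.Zd P014T.Zd.Gu
open P004N (RN ALw)
open P004Z.Lf (sn)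
open P004Z.H (PlC iE)
open P014T.Z (Hg B0 Dg ix L0 lC yK DEGV)

namespace Gl

variable {N : ℕ} [NeZero N] {a : ℕ → ℤ} {d S : ℕ} {x y : Cf N}

theorem comb (k : ℂ) (hx : Vv d S a x) (hy : Vv d S a y) : Vv d S a (k • x + y) :=
  ⟨Lf.Wl.isS_comb k hx.s hy.s, fun l hl h1 => by
    funext n r
    have h2 := congrFun (congrFun (hx.e l hl h1) n) r
    have h3 := congrFun (congrFun (hy.e l hl h1) n) r
    simp only [TT, Pi.add_apply, Pi.smul_apply, smul_eq_mul] at h2 h3 ⊢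
    split_ifs at h2 h3 ⊢ <;> linear_combination k * h2 + h3⟩

theorem evd_eq (D : Pz N a) (l : D.E →+ ℝ) (B : ℍ → ℤ) (s : Finset ℍ) :
    evd s B (lC D l ∘ D.I) = (l (yK D B s) : ℝ) := by
  simp only [evd, yK, map_sum, map_zsmul, zsmul_eq_mul]
  push_cast
  rfl

end Gl

/-- **the formula** -/
theorem gz0 (hD : DEGV) (hM : MAIND) (van : VAN) (rep : REP) (pts : PTS) : GZ0 := by
  intro N G a D d β s₀ c V y hG hAL h hs hc pl hy
  have : NeZero N := ⟨hG.pos.ne'⟩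
  have o := Hg.ok h
  have u := Hg.d1 h
  obtain ⟨m, m0, m1⟩ := deg (ae plc fun_row) Ar.ws_row N a D hG.pos
  obtain ⟨b, b1, b2⟩ := H.ex_bil _ (H.hh_par (a := D.A) (b := D.B) (P014T.Gl.pl_vq pl) (by
    simp only [map_intCast]
    exact_mod_cast mul_ne_zero (by norm_num) D.par.disc))
  obtain ⟨l, hl⟩ := (Module.Baer.of_divisible ℝ).extension_property_addMonoidHom
    (iE (A := D.A) (B := D.B)) P014T.Gl.iE_inj (b y)
  have hl' : ∀ Q, l (iE Q) = b y Q := fun Q => DFunLike.congr_fun hl Q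
  obtain ⟨s, sv, s1, s2⟩ := rep N d _ G a u hG
  rw [Hg.inv_inv h] at s1 s2
  have g := gen (D := D) hG o (ki l)
  have P0 := pet2_ne hG
  have Pc := Li.pet_conj N G
  have N0 := hG.pos
  have d0 := o.one
  have n1 : ((√(N : ℝ) : ℝ) : ℂ) ≠ 0 := ofReal_ne_zero.2 (Real.sqrt_ne_zero'.2 (by positivity))
  have n2 : (N : ℂ) ≠ 0 := Nat.cast_ne_zero.2 N0.ne'
  obtain ⟨κ, hκ⟩ : ∃ κ : ℂ, κ * (2 * (√(N : ℝ) : ℝ) * pet2 N G G) =
      m * Complex.I * (√(d : ℝ) : ℝ) * L1d a d :=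
    ⟨_, div_mul_cancel₀ _ (mul_ne_zero (mul_ne_zero two_ne_zero n1) P0)⟩
  have key := van N G a d β _ hG h (Gl.comb κ sv
    ⟨P004Z.Gl.isS_gen g2.2.2.1 (Bo.bor g4.2.1) o g, g.eig⟩) fun d₁ β₁ h₁ => by
      obtain ⟨t, ht⟩ := (divs N d o (d * d₁) ((β₁ * d : ℤ) : ZMod (2 * N))).2.2.2 (Gamma0 N)
        inferInstance le_rfl
      obtain ⟨l₁, ι, f0, f1, f2, f3, f4⟩ := Ar0.core D hG h₁ ht pl ⟨m0, m1⟩
      obtain ⟨y₁, hy₁⟩ := H.Fo.ex (sum_mem fun z hz => zsmul_mem (f0 z hz) (Bd N d d₁ β₁ z))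
      obtain ⟨C, hC⟩ := (prt.2 N G a D hG).2 (-1) hAL
      have d1 : (d : ℤ) ≠ 0 := by positivity
      have e4 := (wn0 P014T.Z.Wn.ix_row.2 o d1 (show (d₁ : ℤ) % 8 = 7 by exact_mod_cast h₁.m8)
        (by push_cast; ring) ht (F := lC D l ∘ D.I) fun γ hγ z => sub_eq_zero.1
          (((lC D l).map_sub _ _).symm.trans (ki l _ (D.inv γ hγ z)))).2
        ((bdv N d d₁ β₁ h₁).2.1 t ht) (-1) (lC D l C) fun z z' e => by
          rw [Function.comp, Function.comp, hC z z' e, map_add]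
          simp
      rw [u.eps, u.J, ← Bd, Gl.evd_eq, show yK D (Bd N d d₁ β₁) t = iE y₁ from hy₁.symm, hl'] at e4
      have e5 := congrFun (congrFun (hM N G a D d d₁ β₁ t V m l₁ ι hG h₁ ht ⟨f1, f2, f3, f4⟩) 1) β
      simp only [Pi.smul_apply, smul_eq_mul] at e5
      rw [pts N G a D d β s₀ l₁ hG hAL h hs, ← hy, f1 y₁ y hy₁, add_comm y₁, sub_right_comm, ← b1,
        u.eps, u.gs] at e5
      have w := Li.du h₁
      have p1 := Nat.pos_of_ne_zero h₁.sq.ne_zero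
      have e6 := sn_B w (Li.mt h₁) hG (S := 2 * N * d) (by positivity) sv.s sv.e
      have m4 : d * d₁ % 4 = 1 := by
        have := h₁.m8
        rw [Nat.mul_mod, u.m4, show d₁ % 4 = 3 by omega]
      rw [P004Z.Gl.B_conj, s2 _ _ (by positivity) ⟨sn_s w hG.s2, sn_eig w (Li.mt h₁) hG⟩, rho h₁,
        (g2.2.1 N d o s sv.s).1, cS, u.eps, Gq.gs_val w.ok1.odd w.ok1.sq, Gq.e4, if_pos m4, eps,
        Gq.J_neg_one w.ok1.odd, if_pos m4] at e6
      have e7 := congrArg conj e5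
      rw [mul_assoc (N : ℝ), Real.sqrt_mul (by positivity), ← Nat.cast_mul d] at e7
      simp only [map_mul, map_neg, conj_ofReal, conj_I, map_natCast, map_ofNat, map_intCast,
        conj_conj, Pc, l1_conj] at e6 e7
      have n3 : ((√((d * d₁ : ℕ) : ℝ) : ℝ) : ℂ) ≠ 0 :=
        ofReal_ne_zero.2 (Real.sqrt_ne_zero'.2 (by positivity))
      rw [Pi.add_apply, Pi.add_apply, Pi.smul_apply, Pi.smul_apply, smul_eq_mul, xd, e4]
      push_cast at e6 e7 n3 ⊢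
      generalize ((√((d : ℝ) * d₁) : ℝ) : ℂ) = r at *
      generalize conj (sn (d * d₁) (β₁ : ZMod (2 * N)) G 1 β) = T at *
      obtain rfl : T = r * s (d * d₁) (β₁ * d) := mul_left_cancel₀
        (mul_ne_zero (mul_ne_zero I_ne_zero n2) P0) (by linear_combination e6 / 4)
      refine mul_left_cancel₀ (mul_ne_zero (mul_ne_zero n1 P0) n3) ?_
      linear_combination e7 / 2 + r * s (d * d₁) (β₁ * d) * hκ / 2
  have e6 := hD N G a D m c hG ⟨m0, m1⟩ hc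
  rw [Pi.add_apply, Pi.add_apply, Pi.smul_apply, Pi.smul_apply, smul_eq_mul, s1,
    pts N G a D d β s₀ l hG hAL h hs, ← hy, hl', b2] at key
  have n3 : (m : ℂ) ≠ 0 := Nat.cast_ne_zero.2 m0.ne'
  push_cast at key ⊢
  refine mul_left_cancel₀ n3 ?_
  linear_combination 2 * H.hh (P014T.Gl.vq V) y * e6 + 2 * π ^ 2 * pet2 N G G * key -
    π ^ 2 * Complex.I * L0 a 1 * hκ - π ^ 2 * m * (√(d : ℝ) : ℝ) * L1d a d * L0 a 1 * I_sq

end Vale.Agent.P014Y.Z2
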