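import Vale.Agent.P014T.Zd.St
import Vale.Agent.P004Z.W.Ex

/-! # P014Y, block Z2 (Gross-Zagier, the Heegner point in the minus part): the rows -/

set_option autoImplicit false
set_option linter.all false

open Complex UpperHalfPlane MeasureTheory CongruenceSubgroup
open scoped Real MatrixGroups ComplexConjugate NumberTheorySymbols

noncomputable section

namespace Vale.Agent.P014Y.Z2

open P004Z P004Z.Ar
open P004N (S2 QE RN ALw)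
open P004Z.W (Mp AA Gm Dp Dt Md En sl nn ss aa sq2)
open P004Z.Gq (qc)
open P004Z.Lf (sc)
open P004Z.H (PlC iE)
open P014T.Z (Hg Pz1 B0 L0 Cov ix ps lC yK)
open P014T.Zd (L1d xd)
open Vale.Agent.P004M.TE

/-! ## forms of weight `3/2` with many vanishing coefficients -/

/-- the terms of `T(q ^ 2)` as a function on the cosets, permuted by a congruence subgroup -/
structure Hs (N q M : ℕ) [NeZero N] [Fact q.Prime] (H : Mp → ℍ → AA N → ℂ)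
    (c : ℕ → AA N → ℂ) : Prop where
  hq : IsCoprime (q : ℤ) (2 * N)
  hm : IsCoprime (M : ℤ) q
  eq : ∀ x y, Dp q y → x * y⁻¹ ∈ Gm → H x = H y
  up : ∀ x (s : ℤ), Dp q x → sl 3 (nn (M * s : ℤ)) (H x) = H (x * nn (M * s : ℤ))
  lo : ∀ x (s : ℤ), Dp q x →
    sl 3 (ss * nn (M * s : ℤ) * ss⁻¹) (H x) = H (x * (ss * nn (M * s : ℤ) * ss⁻¹))
  ea : En (H (aa q)) fun n r =>
    q ^ 2 * if q ^ 2 ∣ n then c (n / q ^ 2) ((q : AA N)⁻¹ * r) else 0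
  en : ∀ ν : ZMod q, En (H (nn (4 * N * (ν.val : ℤ) / q))) fun n r =>
    sq2 q (-ν) * (ZMod.stdAddChar (ν * (n : ZMod q)) * c n r)
  eb : ∀ b : ℤ, En (sl 3 (aa q) (H ((aa q)⁻¹ * nn (4 * N * b : ℤ)))) fun n r =>
    (√(q : ℝ) : ℝ) * (W.ee (n * b / q ^ 2) * c n (q * r))

/-- weights which are periodic modulo `k` and commute with `T(q ^ 2)` -/
structure Wt {N : ℕ} (q k : ℕ) (φ : Cf N) : Prop where
  cop : q.Coprime k
  pos : k ≠ 0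
  per : ∀ n m r, n ≡ m [MOD k] → φ n r = φ m r
  inv : ∀ n r, φ (q ^ 2 * n) (q * r) = φ n r

def HS : Prop := ∀ (N q k : ℕ) [NeZero N] [Fact q.Prime] σ u F (c φ : Cf N), Dt N q σ u 1 →
  Md N u 3 F → En F c → Wt q k φ → ∃ H, Hs N q (4 * N * k ^ 2) H (φ * c)

def VAN0 : Prop := ∀ (N q M : ℕ) [NeZero N] [Fact q.Prime] H (c : Cf N) (e : ℂ), Hs N q M H c →
  e * e = 1 → (∀ (n : ℕ) r, qc q n * (qc q n - e) * c n r = 0) → ∀ (n : ℕ) r,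
    (q * if q ^ 2 ∣ n then c (n / q ^ 2) ((q : AA N)⁻¹ * r) else 0) = (e - qc q n) * c n r

def VAN1 : Prop := ∀ (N q M : ℕ) [NeZero N] [Fact q.Prime] H (c : Cf N) (e : ℂ), Hs N q M H c →
  e * e = 1 → (∀ (n : ℕ) r, qc q n = e → c (q * n) r = 0) →
  (∀ (n : ℕ) r, ¬ q ∣ n → c (q * n) r = 0) ∧ ∀ (n : ℕ) r, c (q ^ 2 * n) (q * r) =
    q * (qc q n * c n r + q * if q ^ 2 ∣ n then c (n / q ^ 2) ((q : AA N)⁻¹ * r) else 0)

variable {N : ℕ} [NeZero N]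

/-- `T(l ^ 2)` for every `δ ≡ 3` modulo `4` -/
def T3 (l : ℕ) (x : Cf N) : Cf N := fun n r =>
  x (l ^ 2 * n) (l * r) + (J(n | l) : ℂ) * x n r +
    if l ^ 2 ∣ n then l * x (n / l ^ 2) ((l : ZMod (2 * N))⁻¹ * r) else 0

/-- the operators at all primes off `2 N` -/
def KIT : Prop := ∀ (N d : ℕ) [NeZero N], Ok N d → d % 4 = 3 → ∀ q : ℕ, q.Prime → ¬ q ∣ 2 * N →
  (∀ [Fact q.Prime], ∃ σ u, (4 * N : ℤ) ∣ u * d + 1 ∧ Dt N q σ u 1) ∧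
  (¬ q ∣ d → ∀ x : Cf N, TT d q x = T3 q x) ∧ (∀ x : Cf N, IsS d x → IsS d (T3 q x)) ∧
  (∀ l : ℕ, l.Prime → ¬ l ∣ 2 * N → ∀ x : Cf N, T3 l (T3 q x) = T3 q (T3 l x)) ∧
  ∀ k (φ x : Cf N), Wt q k φ → T3 q (φ * x) = φ * T3 q x

/-- the two vanishing lemmas on coefficients (from `HS VAN0 VAN1 KIT`) -/
def VT : Prop := ∀ (N d q k : ℕ) [NeZero N] (φ x : Cf N), Ok N d → d % 4 = 3 → q.Prime →
  ¬ q ∣ 2 * N → Wt q k φ → IsS d x →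
  ((∀ (n : ℕ) r, J(n | q) = -1 → (φ * x) n r = 0) → T3 q (φ * x) = (q + 1 : ℂ) • (φ * x)) ∧
  ∀ e : ℤ, e * e = 1 → (∀ (n : ℕ) r, J(n | q) = e → (φ * x) (q * n) r = 0) →
    T3 q (T3 q (φ * x)) = (q + 1 : ℂ) ^ 2 • (φ * x)

/-- the class of an index -/
def Cl (d : ℕ) (S : Finset ℕ) (n : ℕ) (r : ZMod (2 * N)) : Prop :=
  IsUnit r ∧ n % 8 = 1 ∧ ∀ q ∈ S, q ∣ n ∧ J(-((n / q * (d / q) : ℕ) : ℤ) | q) = 1

/-- the indices of the full class -/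
def ARI : Prop := ∀ (N d : ℕ) [NeZero N] (β : ℤ) (n : ℕ) (r : ZMod (2 * N)), Hg N d β →
  Cl d d.primeFactors n r → In N d n r → ∃ (d₁ m : ℕ) (β₁ : ℤ), n = d * d₁ * m ^ 2 ∧
    r = ((β₁ * d : ℤ) : ZMod (2 * N)) * m ∧ Squarefree (d * d₁) ∧ m.Coprime (2 * N * d) ∧
    (64 * N ^ 4 < d₁ → Dat N d d₁ β₁)

/-- eigenforms -/
structure Vv (d S : ℕ) (a : ℕ → ℤ) (x : Cf N) : Prop where
  s : IsS d x
  e : Eig d S a x

/-- **the coefficient of index one is seen by the fields of the frame** -/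
def VAN : Prop := ∀ (N : ℕ) [NeZero N] G a (d : ℕ) (β : ℤ) (x : Cf N), RN N G a → Hg N d β →
  Vv d (2 * N * d) a x →
  (∀ d₁ β₁, Dat N d d₁ β₁ → x (d * d₁) ((β₁ * d : ℤ) : ZMod (2 * N)) = 0) → x 1 β = 0

/-! ## the lifts of index one -/

/-- the modules of `d` and `1` are dual -/
structure D1 (N : ℕ) [NeZero N] (d : ℕ) (ρ : ZMod (2 * N)) : Prop where
  ok : Ok N d
  un : IsUnit ρ
  sq : (4 * N : ℤ) ∣ (ρ.val : ℤ) ^ 2 * d + 1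
  J : J(N | d) = 1

/-- the smoothed Shimura lift -/
def sh1 (p : ℕ) (ρ : ZMod (2 * N)) (x : Cf N) (z : ℍ) : ℂ :=
  ∫ τ in FD, (∑ r, fn x r τ * th1 (N * p ^ 2) (fun l => ps N p 1 (ρ * r) l) τ z) / τ.im ^ 2

/-- the smoothed Shintani lift -/
def sn1 (p : ℕ) (ρ : ZMod (2 * N)) (G : ℍ → ℂ) : Cf N := fun n r =>
  sc N (N * p ^ 2) (fun l => ps N p 1 (ρ * r) l) G (p ^ 2 * n) 1

def SHI1 : Prop := ∀ (N d p : ℕ) [NeZero N] ρ (x : Cf N), D1 N d ρ → Pz1 N p → IsS d x →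
  S2 N (sh1 p ρ x) ∧ QE (sh1 p ρ x) fun j =>
    -(4 * Complex.I * N * p) * (Tc p (shc 1 ρ x) j - (p + 1) * shc 1 ρ x j)

def WS1 : Prop := ∀ (N d p : ℕ) [NeZero N] ρ G, D1 N d ρ → Pz1 N p → S2 N G →
  IsS d (sn1 p ρ G) ∧ ∀ y : Cf N, IsS d y → Gl.B y (sn1 p ρ G) = pet2 N (sh1 p ρ y) G

def WC1 : Prop := ∀ (N p : ℕ) [NeZero N] (ρ : ZMod (2 * N)) G a, IsUnit ρ → Pz1 N p → RN N G a →
  sn1 p ρ G 1 ρ⁻¹ = Complex.I * (√(N : ℝ) : ℝ) * p * (a p - p - 1) * L0 a 1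

/-- the coefficients at the squares (from `SHI1 KIT`) -/
def SH1 : Prop := ∀ (N d S : ℕ) [NeZero N] ρ G a (x : Cf N), D1 N d ρ → RN N G a → S ≠ 0 →
  Vv d S a x → ∀ j, shc 1 ρ x j = x 1 ρ⁻¹ * a j

/-- the vector which reads off the coefficient of index one (from `SHI1 WS1 WC1 SH1 KIT`) -/
def REP : Prop := ∀ (N d : ℕ) [NeZero N] ρ G a, D1 N d ρ → RN N G a → ∃ s : Cf N,
  Vv d (2 * N * d) a s ∧ s 1 ρ⁻¹ = Complex.I * (√(N : ℝ) : ℝ) * L0 a 1 ∧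
  ∀ S y, S ≠ 0 → Vv d S a y → Gl.B y s = -(4 * Complex.I * N) * y 1 ρ⁻¹ * pet2 N G G

/-! ## the point -/

/-- the coefficient of index one of the generating series is the Heegner point -/
def PTS : Prop := ∀ (N : ℕ) [NeZero N] G a (D : Pz N a) (d : ℕ) (β : ℤ) s₀ (l : D.E →+ ℝ),
  RN N G a → ALw N N G (-1) → Hg N d β → Reps (Gamma0 N) (B0 N d β) s₀ →
  xd D d (lC D l) 1 β = 2 * ix N * (l (yK D (B0 N d β) s₀) : ℝ)

/-- **the target** -/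
def GZ0 : Prop := ∀ (N : ℕ) G a (D : Pz N a) (d : ℕ) (β : ℤ) s₀ (c : ℝ) V y, RN N G a →
  ALw N N G (-1) → Hg N d β → Reps (Gamma0 N) (B0 N d β) s₀ → Cov D.Λ c → PlC V →
  iE y = yK D (B0 N d β) s₀ →
  (2 * D.w ^ 2 * c * H.hh (P014T.Gl.vq V) y : ℝ) = π ^ 2 * (√d : ℝ) * L0 a 1 * L1d a d

end Vale.Agent.P014Y.Z2
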