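import Vale.Agent.P014Y.Z2.St

/-! # P014Y, block Z2: the terms of `T(q ^ 2)` on the projective line modulo `q ^ 2` -/

set_option autoImplicit false
set_option linter.all false

open UpperHalfPlane hiding I
open Complex
open scoped Classical

noncomputable section

namespace Vale.Agent.P014Y.Z2.Tr

open P004Z P004Z.W
open P004Z.Gq (qc)

variable {N q M : ℕ} [NeZero N] [Fact q.Prime] {H : Mp → ℍ → AA N → ℂ} {c : ℕ → AA N → ℂ}
  {x y γ : Mp}

/-- the residues modulo `q ^ 2` -/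
abbrev R (q : ℕ) : Type := ZMod (q ^ 2)

/-- the reduction -/
def pi (q : ℕ) : R q →+* ZMod q := ZMod.castHom (dvd_pow_self q two_ne_zero) (ZMod q)

variable (q) in
/-- the multiples of `q` -/
def iq (ν : ZMod q) : R q := q * (ν.val : R q)

theorem qq : (q : R q) * q = 0 := by rw [← sq, ← Nat.cast_pow, ZMod.natCast_self]

theorem iq_int (z : ℤ) : iq q (z : ZMod q) = q * (z : R q) := by
  obtain ⟨k, hk⟩ := (ZMod.intCast_eq_intCast_iff_dvd_sub ((z : ZMod q).val : ℤ) z q).1 (by simp)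
  have := congrArg (Int.cast : ℤ → R q) hk
  push_cast at this
  rw [iq]
  linear_combination (-(q : R q)) * this - (k : R q) * qq (q := q)

theorem iq_pi (B : R q) : iq q (pi q B) = q * B := by
  obtain ⟨z, rfl⟩ := ZMod.intCast_surjective B
  rw [map_intCast, iq_int]

theorem pi_val (ν : ZMod q) : pi q (ν.val : R q) = ν := by rw [map_natCast, ZMod.natCast_zmod_val]

theorem dv {a b : ℤ} (h : (a : R q) = b) : (q : ℤ) ^ 2 ∣ a - b := by
  exact_mod_cast (ZMod.intCast_eq_intCast_iff_dvd_sub b a (q ^ 2)).1 h.symm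

variable {A B : R q}

theorem cr {a b c d : R q} (h : IsCoprime A B) (h1 : A * b = B * a) (h2 : A * d = B * c) :
    a * d = b * c := by
  obtain ⟨i, j, e⟩ := h
  linear_combination (i * a + j * b) * h2 - (i * c + j * d) * h1 - (a * d - b * c) * e

variable (q) in
/-- the rows of `q x` lie on the line through `(A, B)` -/
def Ln (x : Mp) (A B : R q) : Prop :=
  ∃ a b c d : ℤ, Im q x a b c d ∧ A * b = B * a ∧ A * d = B * c

theorem Ln.dp (l : Ln q x A B) : Dp q x := let ⟨_, _, _, _, h, _⟩ := l; ⟨_, _, _, _, h⟩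

theorem uq (h : Hs N q M H c) (co : IsCoprime A B) (l : Ln q x A B) (l' : Ln q y A B) : H x = H y := by
  obtain ⟨a, b, c, d, i, h1, h2⟩ := l
  obtain ⟨a', b', c', d', i', k1, k2⟩ := l'
  refine h.eq x y ⟨_, _, _, _, i'⟩ ((i.crit i').2 ⟨dv ?_, dv ?_, dv ?_, dv ?_⟩) <;> push_cast
  exacts [cr co h1 k2, (cr co h1 k1).symm, cr co h2 k2, (cr co h2 k1).symm]

variable (q) in
/-- the term of a point -/
def K (H : Mp → ℍ → AA N → ℂ) (A B : R q) : ℍ → AA N → ℂ :=
  if h : IsCoprime A B ∧ ∃ x, Ln q x A B then H h.2.choose else 0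

theorem kx (h : Hs N q M H c) (co : IsCoprime A B) (l : Ln q x A B) : K q H A B = H x := by
  rw [K, dif_pos ⟨co, x, l⟩]
  exact uq h co (Exists.choose_spec (⟨x, l⟩ : ∃ x, Ln q x A B)) l

theorem k0 (hA : pi q A = 0) (hB : pi q B = 0) : K q H A B = 0 :=
  dif_neg fun h => not_isCoprime_zero_zero (hA ▸ hB ▸ h.1.map (pi q))

theorem Ln.sc (l : Ln q x A B) (u : R q) : Ln q x (u * A) (u * B) := by
  obtain ⟨a, b, c, d, i, h1, h2⟩ := l
  exact ⟨a, b, c, d, i, by linear_combination u * h1, by linear_combination u * h2⟩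

theorem ks (h : Hs N q M H c) (u : (R q)ˣ) (A B : R q) : K q H (u * A) (u * B) = K q H A B := by
  by_cases k : IsCoprime A B ∧ ∃ x, Ln q x A B
  · obtain ⟨co, x, l⟩ := k
    rw [kx h co l, kx h ((isCoprime_mul_unit_left u.isUnit _ _).2 co) (l.sc u)]
  · rw [K, K, dif_neg k, dif_neg fun ⟨co, x, l⟩ =>
      k ⟨(isCoprime_mul_unit_left u.isUnit _ _).1 co, x, by simpa using l.sc (u⁻¹ : (R q)ˣ)⟩]

/-- integral entries -/
def Mt (γ : Mp) (a b c d : ℤ) : Prop := γ.g 0 0 = a ∧ γ.g 0 1 = b ∧ γ.g 1 0 = c ∧ γ.g 1 1 = d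

theorem Ln.mul {a b c d : ℤ} (l : Ln q x A B) (m : Mt γ a b c d) :
    Ln q (x * γ) (A * a + B * c) (A * b + B * d) := by
  obtain ⟨a', b', c', d', i, h1, h2⟩ := l
  obtain ⟨m1, m2, m3, m4⟩ := m
  refine ⟨a' * a + b' * c, a' * b + b' * d, c' * a + d' * c, c' * b + d' * d, ⟨?_, ?_, ?_, ?_⟩, ?_, ?_⟩
  iterate 4
    simp only [Mp.mul_g, mul_e, m1, m2, m3, m4, Int.cast_add, Int.cast_mul, ← i.a, ← i.b, ← i.c,
      ← i.d]
    ring
  · push_cast; linear_combination (a * d - b * c : R q) * h1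
  · push_cast; linear_combination (a * d - b * c : R q) * h2

theorem cop {a b c d : R q} (e : a * d - b * c = 1) (h : IsCoprime A B) :
    IsCoprime (A * a + B * c) (A * b + B * d) :=
  let ⟨i, j, k⟩ := h
  ⟨i * d - j * b, j * a - i * c, by linear_combination k + (i * A + j * B) * e⟩

/-- the action as a linear map -/
def sL (γ : Mp) : (ℍ → AA N → ℂ) →ₗ[ℂ] ℍ → AA N → ℂ where
  toFun := sl 3 γ
  map_add' F G := funext fun _ => smul_add _ _ _
  map_smul' a F := funext fun τ => smul_comm (γ.j τ ^ (-3 : ℤ)) a (F (γ.g • τ))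

theorem act (h : Hs N q M H c) {a b e d : ℤ} (m : Mt γ a b e d)
    (hs : ∀ x, Dp q x → sl 3 γ (H x) = H (x * γ)) (A B : R q) :
    sL γ (K q H A B) = K q H (A * a + B * e) (A * b + B * d) := by
  have dt : (a * d - b * e : R q) = 1 := by
    have := det_e γ.g
    rw [m.1, m.2.1, m.2.2.1, m.2.2.2] at this
    exact_mod_cast congrArg (Int.cast : ℤ → R q) (by exact_mod_cast this : a * d - b * e = 1)
  by_cases k : IsCoprime A B ∧ ∃ x, Ln q x A B
  · obtain ⟨co, x, l⟩ := k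
    rw [kx h co l, kx h (cop dt co) (l.mul m)]
    exact hs x l.dp
  · obtain ⟨i1, i2, i3, i4⟩ := inv_e γ.g
    have m' : Mt γ⁻¹ d (-b) (-e) a :=
      ⟨i1.trans m.2.2.2, by simp [i2, m.2.1], by simp [i3, m.2.2.1], i4.trans m.1⟩
    have ea : (A * a + B * e) * d + (A * b + B * d) * -e = A := by linear_combination A * dt
    have eb : (A * a + B * e) * -b + (A * b + B * d) * a = B := by linear_combination B * dt
    rw [K, K, dif_neg k, dif_neg fun ⟨co, x, l⟩ => k ⟨by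
      simpa only [ea, eb] using
        cop (a := d) (b := -b) (c := -e) (d := a) (by linear_combination dt) co, x * γ⁻¹, by
      simpa only [Int.cast_neg, ea, eb] using l.mul m'⟩, map_zero]

theorem ex_m (h : Hs N q M H c) (s : R q) : ∃ m : ℤ, ((M * m : ℤ) : R q) = s := by
  obtain ⟨z, rfl⟩ := ZMod.intCast_surjective s
  obtain ⟨u, v, e⟩ := h.hm.pow_right (n := 2)
  have := congrArg (Int.cast : ℤ → R q) e
  push_cast at this
  exact ⟨u * z, by push_cast; linear_combination (z : R q) * this - (v * z : R q) * qq (q := q)⟩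

theorem exU (h : Hs N q M H c) (s : R q) :
    ∃ U : (ℍ → AA N → ℂ) →ₗ[ℂ] ℍ → AA N → ℂ, ∀ A B, U (K q H A B) = K q H A (B + s * A) := by
  obtain ⟨m, rfl⟩ := ex_m h s
  refine ⟨sL (nn (M * m : ℤ)), fun A B => ?_⟩
  rw [act h (a := 1) (b := M * m) (e := 0) (d := 1) ⟨by simp, rfl, by simp, by simp⟩
    fun x => h.up x m]
  congr 1 <;> push_cast <;> ring

theorem exL (h : Hs N q M H c) (s : R q) :
    ∃ L : (ℍ → AA N → ℂ) →ₗ[ℂ] ℍ → AA N → ℂ, ∀ A B, L (K q H A B) = K q H (A + s * B) B := by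
  obtain ⟨m, e⟩ := ex_m h (-s)
  obtain ⟨i1, i2, i3, i4⟩ := inv_e ss.g
  refine ⟨sL (ss * nn (M * m : ℤ) * ss⁻¹), fun A B => ?_⟩
  rw [act h (a := 1) (b := 0) (e := -(M * m)) (d := 1) ⟨by simp [i1, i3], by simp [i2, i4],
    by simp [i1, i3], by simp [i2, i4]⟩ fun x => h.lo x m, Int.cast_neg, e]
  congr 1 <;> push_cast <;> ring

theorem exS (h : Hs N q M H c) :
    ∃ S : (ℍ → AA N → ℂ) →ₗ[ℂ] ℍ → AA N → ℂ, ∀ A B : R q, S (K q H A B) = K q H B (-A) := by
  obtain ⟨U, hU⟩ := exU h (-1)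
  obtain ⟨L, hL⟩ := exL h 1
  refine ⟨U ∘ₗ L ∘ₗ U, fun A B => ?_⟩
  rw [LinearMap.comp_apply, LinearMap.comp_apply, hU, hL, hU]
  congr 1 <;> ring

theorem kb (h : Hs N q M H c) (z : ℤ) : K q H (1 : R q) z = H ((aa q)⁻¹ * nn z) :=
  kx h isCoprime_one_left ⟨_, _, _, _, im_b z, by simp, by push_cast; linear_combination qq (q := q)⟩

theorem ka (h : Hs N q M H c) : K q H (0 : R q) (-1) = H (aa q) :=
  kx h isCoprime_one_right.neg_right
    ⟨_, _, _, _, im_a, by push_cast; linear_combination qq (q := q), by simp⟩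

theorem kn (h : Hs N q M H c) {ν μ : ZMod q} (e : μ * (4 * N * ν) = -1) :
    K q H (iq q μ) (-1) = H (nn (4 * N * (ν.val : ℤ) / q)) := by
  refine kx h isCoprime_one_right.neg_right ⟨_, _, _, _, im_n _, ?_, ?_⟩ <;>
    push_cast
  · have := iq_pi (q := q) (μ.val * (4 * N * ν.val))
    rw [map_mul, map_mul, map_mul, pi_val, pi_val, map_natCast, map_ofNat, e, ← Int.cast_one,
      ← Int.cast_neg, iq_int] at this
    push_cast at this
    rw [iq]
    linear_combination -this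
  · rw [iq]; linear_combination (μ.val : R q) * qq (q := q)

theorem ne2 (h : Hs N q M H c) : q ≠ 2 := fun e => by
  have := h.hq.of_mul_right_left
  norm_num [e, Int.isCoprime_iff_gcd_eq_one] at this

theorem w0 (h : Hs N q M H c) : (4 * N : ZMod q) ≠ 0 := fun k => by
  have := (ZMod.intCast_zmod_eq_zero_iff_dvd (4 * N) q).1 (by exact_mod_cast k)
  exact (Nat.prime_iff_prime_int.1 Fact.out).not_unit ((cop4 h.hq).symm.isUnit_of_dvd this)

/-- the points above `[1 : 0]` -/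
theorem e1 (h : Hs N q M H c) (a : ZMod q → ℂ) :
    En (sL (aa q) (∑ ν, a ν • K q H 1 (iq q (4 * N * ν)))) fun n r =>
      (√(q : ℝ) : ℝ) * ((∑ ν, a ν * ZMod.stdAddChar (ν * (n : ZMod q))) * c n (q * r)) := by
  have k : ∀ ν : ZMod q, K q H 1 (iq q (4 * N * ν)) = H ((aa q)⁻¹ * nn (4 * N * (q * ν.val) : ℤ)) :=
    fun ν => by
      have := iq_pi (q := q) (4 * N * ν.val)
      rw [map_mul, map_mul, pi_val, map_natCast, map_ofNat] at this
      rw [← kb h, this]
      congr 1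
      push_cast
      ring
  simp only [map_sum, map_smul, k]
  refine (En.sum (F := fun ν => a ν • sL (aa q) _) fun ν => (h.eb (q * ν.val)).smul (a ν)).cg
    fun n r => ?_
  simp only [Finset.sum_apply, Pi.smul_apply, smul_eq_mul, Finset.sum_mul, Finset.mul_sum]
  refine Finset.sum_congr rfl fun ν _ => ?_
  have := p_ne (p := q)
  rw [← ee_std, show (n * ((q * ν.val : ℤ) : ℂ) / q ^ 2) = n * ν.val / q by
    push_cast; field_simp]
  ring

/-- the points above `[0 : 1]` -/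
theorem e2 (h : Hs N q M H c) (a : ZMod q → ℂ) :
    En (∑ ν, a ν • K q H (iq q (4 * N * ν)) (-1)) fun n r =>
      a 0 * (q ^ 2 * if q ^ 2 ∣ n then c (n / q ^ 2) ((q : AA N)⁻¹ * r) else 0) +
        (∑ ν : ZMod q, a (-((4 * N) ^ 2 * ν)⁻¹) * (qc q (-ν) * P004Z.gs q) *
          ZMod.stdAddChar (ν * (n : ZMod q))) * c n r := by
  have w := w0 h
  rw [← (Function.Involutive.bijective (f := fun ν : ZMod q => -((4 * N) ^ 2 * ν)⁻¹) fun ν => by
    simp [mul_right_comm _ ν, w]).sum_comp]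
  have k : ∀ ν : ZMod q, En (K q H (iq q (4 * N * -((4 * N) ^ 2 * ν)⁻¹)) (-1)) fun n r =>
      (if ν = 0 then q ^ 2 * if q ^ 2 ∣ n then c (n / q ^ 2) ((q : AA N)⁻¹ * r) else 0 else 0) +
        qc q (-ν) * P004Z.gs q * (ZMod.stdAddChar (ν * (n : ZMod q)) * c n r) := fun ν => by
    by_cases e : ν = 0
    · have : iq q (4 * N * -((4 * N) ^ 2 * ν)⁻¹) = 0 := by simp [e, iq]
      rw [this, ka h]
      exact h.ea.cg fun n r => by simp [e, Gq.qc_zero]
    · rw [kn h (ν := ν) (by generalize (4 * N : ZMod q) = w' at *; field_simp)]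
      exact (h.en ν).cg fun n r => by rw [if_neg e, zero_add, sq2_eq (ne2 h) (neg_ne_zero.2 e)]
  refine (En.sum fun ν => (k ν).smul _).cg fun n r => ?_
  simp only [Finset.sum_apply, Pi.smul_apply, smul_eq_mul, mul_add, Finset.sum_add_distrib,
    Finset.sum_mul, mul_assoc, mul_ite, mul_zero, Finset.sum_ite_eq', Finset.mem_univ, if_true,
    inv_zero, neg_zero]

theorem en_aa {F : ℍ → AA N → ℂ} (h : En F c) : En (sL (aa q) F) fun n r =>
    (√(q : ℝ) : ℝ) * (q * if q ^ 2 ∣ n then c (n / q ^ 2) r else 0) := fun τ r => by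
  have p0 : 0 < q ^ 2 := pow_pos (NeZero.pos q) 2
  show HasSum _ (((aa q).j τ) ^ (-3 : ℤ) * F ((aa q).g • τ) r)
  beta_reduce
  refine ((mul_right_injective₀ p0.ne').hasSum_iff fun n hn => ?_).1
    (hs_cg ((h _ _).mul_left _) fun n => ?_)
  · rw [if_neg fun ⟨k, e⟩ => hn ⟨k, e.symm⟩, mul_zero, mul_zero, zero_mul]
  · rw [Function.comp, if_pos (dvd_mul_right _ _), Nat.mul_div_cancel_left _ p0, aa_sm,
      show ((q ^ 2 * n : ℕ) : ℂ) * τ = n * (q ^ 2 * τ) by push_cast; ring, aa_j, _root_.inv_zpow',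
      neg_neg, zpow_ofNat, ← sp_c]
    ring

theorem aa_inj {F : ℍ → AA N → ℂ} (h : En (sL (aa q) F) 0) : F = 0 := by
  have : sl 3 (aa q) F = 0 := h.ext (G := 0) fun τ r => by simpa using hasSum_zero
  rw [← sl_one 3 F, ← mul_inv_cancel (aa q), sl_mul, this]
  exact map_zero (sL (aa q)⁻¹)

end Vale.Agent.P014Y.Z2.Tr
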